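import Vale.Agent.P201.Switch

/-
The first moment bound for patterns of overlapping walks.
-/

namespace Vale.Agent.P201

open Classical Vale.Agent.P194

/-- The state attached to a position of a pattern. -/
@[ext] structure St (C : Type) (L B : ℕ) where
  act : Bool
  brk : Bool
  fin : Bool
  col : C
  ptr : Option (Fin L × Bool)
  si : Fin (B + 1)
  ti : Fin (B + 1)

/-- Moving a pointer. -/
def mv {L : ℕ} (z : Fin L × Bool) : Fin L × Bool :=
  (if z.2 then (if h : z.1.val + 1 < L then ⟨z.1.val + 1, h⟩ else z.1)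
    else ⟨z.1.val - 1, lt_of_le_of_lt (Nat.sub_le _ _) z.1.isLt⟩, z.2)

/-- The state at the next position when there is no break. -/
def St.nx {C : Type} {L B : ℕ} (cb : C → C) (s : St C L B) : St C L B :=
  ⟨s.act, false, false, if s.act then cb s.col else s.col, s.ptr.map mv, 0, 0⟩

/-- The previous letter. -/
def prev {Λ : Type} {L : ℕ} (a0 : Λ) (x : Fin L → Λ) (p : Fin L) : Λ :=
  (Fin.cons a0 x : Fin (L + 1) → Λ) p.castSucc

theorem prev_eq {Λ : Type} {L : ℕ} (a0 : Λ) (x : Fin L → Λ) {p p' : Fin L}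
    (h : p'.val + 1 = p.val) : prev a0 x p = x p' := by
  have : p.castSucc = p'.succ := Fin.ext (by simp [h])
  rw [prev, this, Fin.cons_succ]

theorem st_inj (C : Type) (L B : ℕ) : Function.Injective
    (fun s : St C L B => (s.act, s.brk, s.fin, s.col, s.ptr, s.si, s.ti)) := by
  intro s s' h
  simp only [Prod.mk.injEq] at h
  exact St.ext h.1 h.2.1 h.2.2.1 h.2.2.2.1 h.2.2.2.2.1 h.2.2.2.2.2.1 h.2.2.2.2.2.2

instance (C : Type) [Finite C] (L B : ℕ) : Finite (St C L B) := Finite.of_injective _ (st_inj C L B)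

theorem card_st (C : Type) [Finite C] (L B : ℕ) :
    Nat.card (St C L B) ≤ 8 * Nat.card C * (2 * L + 1) * (B + 1) ^ 2 := by
  refine (Nat.card_le_card_of_injective _ (st_inj C L B)).trans (le_of_eq ?_)
  have := Fintype.ofFinite C
  simp only [Nat.card_eq_fintype_card, Fintype.card_prod, Fintype.card_option, Fintype.card_bool,
    Fintype.card_fin]
  ring

theorem card_small_subsets {α : Type} [Fintype α] (B : ℕ) :
    (Finset.univ.filter fun P : Finset α => P.card ≤ B).card ≤ (Fintype.card α + 1) ^ B := by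
  have : (Fintype.card α + 1) ^ B = (Finset.univ : Finset (Fin B → Option α)).card := by simp
  rw [this]
  refine Finset.card_le_card_of_surjOn
    (fun F => Finset.univ.filter fun a => ∃ i, F i = some a) ?_
  intro P hP
  have hP' : P.card ≤ B := (Finset.mem_filter.1 (Finset.mem_coe.1 hP)).2
  refine ⟨fun i => if h : i.val < P.card then some (P.equivFin.symm ⟨i, h⟩).1 else none,
    by simp, ?_⟩
  ext a
  simp only [Finset.mem_filter, Finset.mem_univ, true_and]
  constructor
  · rintro ⟨i, hi⟩
    split_ifs at hi with h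
    rw [← Option.some.inj hi]
    exact Finset.coe_mem _
  · intro ha
    refine ⟨⟨P.equivFin ⟨a, ha⟩, lt_of_lt_of_le (Fin.isLt _) hP'⟩, ?_⟩
    simp

theorem card_patterns {α : Type} [Fintype α] (nx : α → α) (L B : ℕ) :
    (Finset.univ.filter fun st : Fin L → α => (Finset.univ.filter fun p : Fin L =>
      ∀ p' : Fin L, p'.val + 1 = p.val → st p ≠ nx (st p')).card ≤ B).card ≤
      (L * Fintype.card α + 1) ^ B := by
  have : L * Fintype.card α = Fintype.card (Fin L × α) := by simp
  rw [this]
  refine le_trans ?_ (card_small_subsets B)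
  refine Finset.card_le_card_of_injOn (fun st => (Finset.univ.filter fun p : Fin L =>
      ∀ p' : Fin L, p'.val + 1 = p.val → st p ≠ nx (st p')).image fun p => (p, st p)) ?_ ?_
  · intro st hst
    exact Finset.mem_coe.2 (Finset.mem_filter.2 ⟨Finset.mem_univ _,
      Finset.card_image_le.trans (Finset.mem_filter.1 (Finset.mem_coe.1 hst)).2⟩)
  · intro st _ st' _ h
    have key : ∀ (st st' : Fin L → α) (p : Fin L), (p, st p) ∈ (Finset.univ.filter fun p : Fin L =>
        ∀ p' : Fin L, p'.val + 1 = p.val → st' p ≠ nx (st' p')).image (fun p => (p, st' p)) →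
        st p = st' p := by
      intro st st' p hp
      obtain ⟨q, -, hq⟩ := Finset.mem_image.1 hp
      simp only [Prod.mk.injEq] at hq
      rw [← hq.2, hq.1]
    have : ∀ n, ∀ p : Fin L, p.val = n → st p = st' p := by
      intro n
      induction n using Nat.strong_induction_on with
      | _ n ih =>
      intro p hp
      dsimp only at h
      by_cases c1 : ∀ p' : Fin L, p'.val + 1 = p.val → st p ≠ nx (st p')
      · refine key st st' p ?_
        rw [← h]
        exact Finset.mem_image_of_mem _ (Finset.mem_filter.2 ⟨Finset.mem_univ _, c1⟩)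
      by_cases c2 : ∀ p' : Fin L, p'.val + 1 = p.val → st' p ≠ nx (st' p')
      · refine (key st' st p ?_).symm
        rw [h]
        exact Finset.mem_image_of_mem _ (Finset.mem_filter.2 ⟨Finset.mem_univ _, c2⟩)
      push Not at c1 c2
      obtain ⟨q, q1, q2⟩ := c1
      obtain ⟨q', q1', q2'⟩ := c2
      obtain rfl : q = q' := Fin.ext (by omega)
      rw [q2, q2', ih q.val (by omega) q rfl]
    exact funext fun p => this _ p rfl

theorem transfer_bound {Λ : Type} [Fintype Λ] (hh : Λ → ℝ) (h1 : ∀ a, 1 ≤ hh a) (L : ℕ) :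
    ∀ (w : Fin L → Λ → Λ → ℝ) (M : Fin L → ℝ), (∀ p a b, 0 ≤ w p a b) → (∀ p, 0 ≤ M p) →
      (∀ p a, ∑ b, w p a b * hh b ≤ M p * hh a) → ∀ a,
      ∑ y : Fin L → Λ, ∏ p, w p (prev a y p) (y p) ≤ hh a * ∏ p, M p := by
  induction L with
  | zero => intro w M _ _ _ a; simpa using h1 a
  | succ L ih =>
    intro w M hw hM hs a
    rw [← (Fin.consEquiv fun _ => Λ).sum_comp, Fintype.sum_prod_type, Fin.prod_univ_succ M]
    have e : ∀ (b : Λ) (y : Fin L → Λ), ∏ p, w p (prev a ((Fin.consEquiv fun _ => Λ) (b, y)) p)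
        ((Fin.consEquiv fun _ => Λ) (b, y) p) =
        w 0 a b * ∏ p : Fin L, w p.succ (prev b y p) (y p) := by
      intro b y
      rw [Fin.prod_univ_succ]
      rfl
    simp only [e, ← Finset.mul_sum]
    calc _ ≤ ∑ b, w 0 a b * (hh b * ∏ p : Fin L, M p.succ) :=
          Finset.sum_le_sum fun b _ => mul_le_mul_of_nonneg_left
            (ih (fun p => w p.succ) (fun p => M p.succ) (fun p => hw _) (fun p => hM _)
              (fun p => hs _) b) (hw _ _ _)
      _ = (∑ b, w 0 a b * hh b) * ∏ p : Fin L, M p.succ := by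
          rw [Finset.sum_mul]
          exact Finset.sum_congr rfl fun b _ => by ring
      _ ≤ (M 0 * hh a) * ∏ p : Fin L, M p.succ :=
          mul_le_mul_of_nonneg_right (hs _ _) (Finset.prod_nonneg fun p _ => hM _)
      _ = _ := by ring

/-- Conditions on the letters of a witness. -/
structure ValidX {Λ C : Type} {L B : ℕ} (ι : Λ → Λ) (a0 : Λ) (st : Fin L → St C L B)
    (x : Fin L → Λ) : Prop where
  off : ∀ p, (st p).act = false → x p = a0
  rk : ∃ rk : Fin L → ℕ, ∀ p q o, (st p).act = true → (st p).ptr = some (q, o) →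
    rk q < rk p ∧ x p = if o then x q else ι (x q)
  inner : ∀ p, (st p).act = true → (st p).brk = false → ∃ p' : Fin L, p'.val + 1 = p.val ∧
    (st p').act = true ∧ ((st p).ptr = none → (st p').ptr = none) ∧ x p ≠ ι (x p')

/-- The number of ordinary turns into free edges. -/
noncomputable def nfree {Λ C : Type} {L B : ℕ} (ns : Λ → Λ → Prop) (a0 : Λ)
    (st : Fin L → St C L B) (x : Fin L → Λ) : ℕ :=
  (Finset.univ.filter fun p => ((st p).act = true ∧ (st p).brk = false) ∧
    ns (prev a0 x p) (x p) ∧ (st p).ptr = none).card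

/-- The number of ordinary turns. -/
noncomputable def nord {Λ C : Type} {L B : ℕ} (ns : Λ → Λ → Prop) (a0 : Λ)
    (st : Fin L → St C L B) (x : Fin L → Λ) : ℕ :=
  (Finset.univ.filter fun p => ((st p).act = true ∧ (st p).brk = false) ∧
    ns (prev a0 x p) (x p)).card

theorem sum_labels {Λ C : Type} [Fintype Λ] {L B : ℕ} (ι : Λ → Λ) (a0 : Λ) (ns : Λ → Λ → Prop)
    (hh : Λ → ℝ) (h1 : ∀ a, 1 ≤ hh a) (h0 : hh a0 = 1) (D H : ℝ) (hD : 0 < D) (hH : 1 ≤ H)
    (hH' : ∑ b, hh b ≤ H)
    (hker : ∀ a, ∑ b, (if b = ι a then 0 else if ns a b then D⁻¹ else 1) * hh b ≤ hh a)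
    (st : Fin L → St C L B) (hB : (Finset.univ.filter fun p => (st p).brk = true).card ≤ B) :
    ∑ x ∈ Finset.univ.filter (ValidX ι a0 st), D⁻¹ ^ nfree ns a0 st x ≤ H ^ B := by
  let fr : Fin L → Prop := fun p => (st p).act = true ∧ (st p).ptr = none
  let w : Fin L → Λ → Λ → ℝ := fun p a b =>
    if fr p then (if (st p).brk = true then 1 else
      if b = ι a then 0 else if ns a b then D⁻¹ else 1) else if b = a0 then 1 else 0
  let M : Fin L → ℝ := fun p => if (st p).brk = true then H else 1
  have hD' : 0 ≤ D⁻¹ := inv_nonneg.2 hD.le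
  have hw : ∀ p a b, 0 ≤ w p a b := by
    intro p a b
    simp only [w]
    split_ifs <;> first | exact hD' | norm_num
  have hM : ∀ p, 1 ≤ M p := by
    intro p
    simp only [M]
    split_ifs
    · exact hH
    · exact le_rfl
  have hT := transfer_bound hh h1 L w M hw (fun p => zero_le_one.trans (hM p)) (by
    intro p a
    have ha := h1 a
    by_cases c1 : fr p
    · by_cases c2 : (st p).brk = true
      · simp only [w, M, if_pos c1, if_pos c2, one_mul]
        nlinarith
      · simp only [w, M, if_pos c1, if_neg c2, one_mul]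
        exact hker a
    · simp only [w, if_neg c1, ite_mul, one_mul, zero_mul, Finset.sum_ite_eq', Finset.mem_univ,
        if_true, h0]
      nlinarith [hM p]) a0
  rw [h0, one_mul] at hT
  have hM2 : ∏ p, M p ≤ H ^ B := by
    simp only [M]
    rw [Finset.prod_ite, Finset.prod_const, Finset.prod_const_one, mul_one]
    exact pow_le_pow_right₀ hH hB
  refine le_trans ?_ (hT.trans hM2)
  let r : (Fin L → Λ) → Fin L → Λ := fun x p => if fr p then x p else a0
  have hinj : Set.InjOn r (Finset.univ.filter (ValidX ι a0 st) : Finset _) := by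
    intro x hx x' hx' h
    have hx := (Finset.mem_filter.1 (Finset.mem_coe.1 hx)).2
    have hx' := (Finset.mem_filter.1 (Finset.mem_coe.1 hx')).2
    obtain ⟨rk, hrk⟩ := hx.rk
    obtain ⟨rk', hrk'⟩ := hx'.rk
    have : ∀ n p, rk p = n → x p = x' p := by
      intro n
      induction n using Nat.strong_induction_on with
      | _ n ih =>
      intro p hp
      cases ha : (st p).act
      · rw [hx.off p ha, hx'.off p ha]
      · cases hptr : (st p).ptr with
        | none =>
          have := congrFun h p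
          simp only [r, if_pos (show fr p from ⟨ha, hptr⟩)] at this
          exact this
        | some z =>
          obtain ⟨q, o⟩ := z
          obtain ⟨k1, k2⟩ := hrk p q o ha hptr
          rw [k2, (hrk' p q o ha hptr).2, ih _ (by omega) q rfl]
    exact funext fun p => this _ p rfl
  calc _ = ∑ x ∈ Finset.univ.filter (ValidX ι a0 st), ∏ p, w p (prev a0 (r x) p) (r x p) := by
        refine Finset.sum_congr rfl fun x hx => ?_
        have hx := (Finset.mem_filter.1 hx).2
        rw [nfree, ← Finset.prod_const, Finset.prod_filter]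
        refine Finset.prod_congr rfl fun p _ => ?_
        by_cases c1 : fr p
        · cases c2 : (st p).brk
          · obtain ⟨p', e1, e2, e3, e4⟩ := hx.inner p c1.1 c2
            have : fr p' := ⟨e2, e3 c1.2⟩
            rw [prev_eq a0 _ e1, prev_eq a0 _ e1]
            simp only [w, r, if_pos c1, if_pos this, c2, if_neg e4, c1.1, c1.2]
            simp
          · simp [w, c1, c2]
        · have : ¬ (((st p).act = true ∧ (st p).brk = false) ∧ ns (prev a0 x p) (x p) ∧
              (st p).ptr = none) := fun k => c1 ⟨k.1.1, k.2.2⟩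
          rw [if_neg this]
          simp [w, r, c1]
    _ = ∑ y ∈ (Finset.univ.filter (ValidX ι a0 st)).image r, ∏ p, w p (prev a0 y p) (y p) :=
        (Finset.sum_image (f := fun y => ∏ p, w p (prev a0 y p) (y p)) hinj).symm
    _ ≤ _ := Finset.sum_le_sum_of_subset_of_nonneg (Finset.subset_univ _)
        fun y _ _ => Finset.prod_nonneg fun p _ => hw _ _ _

/-- A witness: a pattern together with letters and vertices realising it. -/
structure Valid {V Λ C : Type} {L B : ℕ} (ι : Λ → Λ) (T : V → Λ → Prop) (col : V → C)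
    (cb : C → C) (ns : Λ → Λ → Prop) (a0 : Λ) (vd : V) (m D R θ : ℝ) (st : Fin L → St C L B)
    (V0 : ℕ) (x : Fin L → Λ) (nl : Fin (B + 1) → V) (s t : Fin L → V) : Prop where
  pat : (Finset.univ.filter fun p : Fin L =>
      ∀ p' : Fin L, p'.val + 1 = p.val → st p ≠ (st p').nx cb).card ≤ B
  vx : ValidX ι a0 st x
  hnl : ∀ i, V0 ≤ i.val → nl i = vd
  off : ∀ p, (st p).act = false → s p = vd ∧ t p = vd
  inner : ∀ p, (st p).act = true → (st p).brk = false →
    col (s p) = (st p).col ∧ T (s p) (ι (prev a0 x p)) ∧ T (s p) (x p)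
  src : ∀ p, (st p).act = true → (st p).brk = true → s p = nl (st p).si
  tgt1 : ∀ p, (st p).act = true → (st p).fin = true → t p = nl (st p).ti
  tgt2 : ∀ p, (st p).act = true → (st p).fin = false → ∃ p' : Fin L, p'.val = p.val + 1 ∧
    t p = s p'
  dist1 : ∀ p q, (st p).act = true → (st q).act = true → s p = s q → x p = x q → p = q
  dist2 : ∀ p q, (st p).act = true → (st q).act = true → s p = t q → x p ≠ ι (x q)
  bad : m ^ (V0 + (Finset.univ.filter fun p => (st p).act = true ∧ (st p).brk = false).card) *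
      D ^ nfree ns a0 st x ≤
    θ * m ^ (Finset.univ.filter fun p => (st p).act = true).card * R ^ nord ns a0 st x

section
variable {V Λ C : Type} [Fintype V] [Fintype Λ] [Finite C] {L B : ℕ} {ι : Λ → Λ}
  {T : V → Λ → Prop} {col : V → C} {cb : C → C} {ns : Λ → Λ → Prop} {a0 : Λ} {vd : V}
  {m D R θ ε cV : ℝ}

omit [Fintype Λ] [Finite C] in
theorem fiber_bound (hm : 1 ≤ m) (hD : 0 < D) (hR : 0 < R) (hθ : 0 ≤ θ) (hε : 0 ≤ ε)
    (hcV : 1 ≤ cV)
    (hn2 : ∀ c a b, b ≠ ι a → ns a b →
      ({v | col v = c ∧ T v (ι a) ∧ T v b}.ncard : ℝ) * R ≤ (1 + ε) * m)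
    (hn10 : ∀ c a, ({v | T v a ∧ col v = c}.ncard : ℝ) ≤ (1 + ε) * m)
    (hV : (Fintype.card V : ℝ) ≤ cV * m) (st : Fin L → St C L B) (V0 : ℕ) (hV0 : V0 ≤ B + 1)
    (x : Fin L → Λ) :
    ((Finset.univ.filter fun z : (Fin (B + 1) → V) × (Fin L → V) × (Fin L → V) =>
      Valid ι T col cb ns a0 vd m D R θ st V0 x z.1 z.2.1 z.2.2).card : ℝ) *
      m⁻¹ ^ (Finset.univ.filter fun p => (st p).act = true).card ≤
      cV ^ (B + 1) * (1 + ε) ^ L * θ * D⁻¹ ^ nfree ns a0 st x := by
  have hm0 : 0 < m := by linarith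
  rcases (Finset.univ.filter fun z : (Fin (B + 1) → V) × (Fin L → V) × (Fin L → V) =>
      Valid ι T col cb ns a0 vd m D R θ st V0 x z.1 z.2.1 z.2.2).eq_empty_or_nonempty with
    h | ⟨z0, hz0⟩
  · rw [h]
    simp only [Finset.card_empty, Nat.cast_zero, zero_mul]
    positivity
  have hz0 := (Finset.mem_filter.1 hz0).2
  let inn : Fin L → Prop := fun p => (st p).act = true ∧ (st p).brk = false
  let N : Fin (B + 1) → Finset V := fun i => if i.val < V0 then Finset.univ else {vd}
  let S : Fin L → Finset V := fun p => if inn p then Finset.univ.filter fun v =>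
    col v = (st p).col ∧ T v (ι (prev a0 x p)) ∧ T v (x p) else {vd}
  have h1 : (Finset.univ.filter fun z : (Fin (B + 1) → V) × (Fin L → V) × (Fin L → V) =>
      Valid ι T col cb ns a0 vd m D R θ st V0 x z.1 z.2.1 z.2.2).card ≤
      (Fintype.piFinset N ×ˢ Fintype.piFinset S).card := by
    refine Finset.card_le_card_of_injOn
      (fun z => (z.1, fun p => if inn p then z.2.1 p else vd)) ?_ ?_
    · intro z hz
      have hz := (Finset.mem_filter.1 (Finset.mem_coe.1 hz)).2
      refine Finset.mem_coe.2 (Finset.mem_product.2 ⟨Fintype.mem_piFinset.2 fun i => ?_,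
        Fintype.mem_piFinset.2 fun p => ?_⟩)
      · simp only [N]
        split_ifs with h
        · exact Finset.mem_univ _
        · exact Finset.mem_singleton.2 (hz.hnl i (by omega))
      · simp only [S]
        split_ifs with h
        · exact Finset.mem_filter.2 ⟨Finset.mem_univ _, hz.inner p h.1 h.2⟩
        · exact Finset.mem_singleton_self _
    · rintro ⟨nl, s, t⟩ hz ⟨nl', s', t'⟩ hz' h
      have hz := (Finset.mem_filter.1 (Finset.mem_coe.1 hz)).2
      have hz' := (Finset.mem_filter.1 (Finset.mem_coe.1 hz')).2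
      simp only [Prod.mk.injEq] at h hz hz' ⊢
      obtain ⟨rfl, h⟩ := h
      have hs : s = s' := by
        funext p
        cases ha : (st p).act
        · rw [(hz.off p ha).1, (hz'.off p ha).1]
        · cases hb : (st p).brk
          · have := congrFun h p
            simp only [if_pos (show inn p from ⟨ha, hb⟩)] at this
            exact this
          · rw [hz.src p ha hb, hz'.src p ha hb]
      subst hs
      refine ⟨rfl, rfl, funext fun p => ?_⟩
      cases ha : (st p).act
      · rw [(hz.off p ha).2, (hz'.off p ha).2]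
      · cases hb : (st p).fin
        · obtain ⟨q, q1, q2⟩ := hz.tgt2 p ha hb
          obtain ⟨q', q1', q2'⟩ := hz'.tgt2 p ha hb
          obtain rfl : q = q' := Fin.ext (by omega)
          rw [q2, q2']
        · rw [hz.tgt1 p ha hb, hz'.tgt1 p ha hb]
  rw [Finset.card_product, Fintype.card_piFinset, Fintype.card_piFinset] at h1
  have hcm : 1 ≤ cV * m := by nlinarith
  have h2 : ((∏ i, (N i).card : ℕ) : ℝ) ≤ (cV * m) ^ V0 := by
    push_cast
    calc _ ≤ ∏ i : Fin (B + 1), if i.val < V0 then cV * m else 1 := by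
          refine Finset.prod_le_prod (fun _ _ => Nat.cast_nonneg _) fun i _ => ?_
          simp only [N]
          split_ifs
          · exact hV
          · simp
      _ ≤ _ := by
          rw [Finset.prod_ite, Finset.prod_const, Finset.prod_const_one, mul_one]
          refine pow_le_pow_right₀ hcm ?_
          refine le_trans ?_ (Finset.card_range V0).le
          exact Finset.card_le_card_of_injOn (fun i => i.val)
            (fun i hi => Finset.mem_coe.2 (Finset.mem_range.2
              (Finset.mem_filter.1 (Finset.mem_coe.1 hi)).2)) Fin.val_injective.injOn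
  have h3 : ((∏ p, (S p).card : ℕ) : ℝ) ≤
      ((1 + ε) * m) ^ (Finset.univ.filter inn).card * R⁻¹ ^ nord ns a0 st x := by
    push_cast
    rw [nord, ← Finset.prod_const, ← Finset.prod_const, Finset.prod_filter, Finset.prod_filter,
      ← Finset.prod_mul_distrib]
    refine Finset.prod_le_prod (fun _ _ => Nat.cast_nonneg _) fun p _ => ?_
    simp only [S]
    by_cases h : inn p
    · rw [if_pos h, if_pos h]
      by_cases h' : ns (prev a0 x p) (x p)
      · rw [if_pos ⟨h, h'⟩, ← div_eq_mul_inv, le_div_iff₀ hR]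
        obtain ⟨p', e1, -, -, e4⟩ := hz0.vx.inner p h.1 h.2
        refine le_trans (le_of_eq ?_) (hn2 (st p).col _ _ (by rwa [prev_eq a0 x e1]) h')
        rw [← Set.ncard_coe_finset]
        simp
      · rw [if_neg (fun k => h' k.2), mul_one]
        refine le_trans ?_ (hn10 (st p).col (x p))
        rw [← Set.ncard_coe_finset]
        refine Nat.cast_le.2 (Set.ncard_le_ncard ?_ (Set.toFinite _))
        intro v hv
        have := (Finset.mem_filter.1 (Finset.mem_coe.1 hv)).2
        exact ⟨this.2.2, this.1⟩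
    · rw [if_neg h, if_neg h, if_neg (fun k => h k.1)]
      simp
  have hb := hz0.bad
  set i := (Finset.univ.filter inn).card with hi
  set e := (Finset.univ.filter fun p => (st p).act = true).card
  set ν := nord ns a0 st x
  set f := nfree ns a0 st x
  have hiL : i ≤ L := by simpa using Finset.card_filter_le Finset.univ inn
  have hb' : m ^ (V0 + i) * R⁻¹ ^ ν * m⁻¹ ^ e ≤ θ * D⁻¹ ^ f := by
    rw [inv_pow, inv_pow, inv_pow, ← div_eq_mul_inv, ← div_eq_mul_inv, ← div_eq_mul_inv, div_div,
      div_le_div_iff₀ (by positivity) (by positivity)]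
    calc _ ≤ θ * m ^ e * R ^ ν := hb
      _ = _ := by ring
  calc _ ≤ ((cV * m) ^ V0 * (((1 + ε) * m) ^ i * R⁻¹ ^ ν)) * m⁻¹ ^ e := by
        refine mul_le_mul_of_nonneg_right ?_ (by positivity)
        refine le_trans (Nat.cast_le.2 h1) ?_
        rw [Nat.cast_mul]
        exact mul_le_mul h2 h3 (Nat.cast_nonneg _) (by positivity)
    _ = (cV ^ V0 * (1 + ε) ^ i) * (m ^ (V0 + i) * R⁻¹ ^ ν * m⁻¹ ^ e) := by
        rw [mul_pow, mul_pow, pow_add]
        ring
    _ ≤ (cV ^ (B + 1) * (1 + ε) ^ L) * (θ * D⁻¹ ^ f) := by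
        refine mul_le_mul (mul_le_mul (pow_le_pow_right₀ hcV hV0)
          (pow_le_pow_right₀ (by linarith) hiL) (by positivity) (by positivity)) hb'
          (by positivity) (by positivity)
    _ = _ := by ring

theorem exists_good_cfg (hι : ∀ a, ι (ι a) = a) (hι' : ∀ a, ι a ≠ a) (hcb : ∀ c, cb (cb c) = c)
    {d g : ℕ} (hd : ∀ v, {a | T v a}.ncard ≤ d) (mn : ℕ) (hmn : m = mn)
    (hcl : ∀ a c, mn + 2 * (d + 1) ^ g + 2 * L ≤ {v | T v a ∧ col v = c}.ncard)
    (hne : (Cfg ι T col cb g).Nonempty)
    (hm : 1 ≤ m) (hD : 0 < D) (hR : 0 < R) (hθ : 0 ≤ θ) (hε : 0 ≤ ε) (hcV : 1 ≤ cV)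
    (hn2 : ∀ c a b, b ≠ ι a → ns a b →
      ({v | col v = c ∧ T v (ι a) ∧ T v b}.ncard : ℝ) * R ≤ (1 + ε) * m)
    (hn10 : ∀ c a, ({v | T v a ∧ col v = c}.ncard : ℝ) ≤ (1 + ε) * m)
    (hV : (Fintype.card V : ℝ) ≤ cV * m)
    (hh : Λ → ℝ) (h1 : ∀ a, 1 ≤ hh a) (h0 : hh a0 = 1) (H : ℝ) (hH : 1 ≤ H)
    (hH' : ∑ b, hh b ≤ H)
    (hker : ∀ a, ∑ b, (if b = ι a then 0 else if ns a b then D⁻¹ else 1) * hh b ≤ hh a)
    (hsmall : (((L * Nat.card (St C L B) + 1) ^ B * (B + 2) : ℕ) : ℝ) *
      (cV ^ (B + 1) * (1 + ε) ^ L * θ * H ^ B) < 1) :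
    ∃ E ∈ Cfg ι T col cb g, ∀ (st : Fin L → St C L B) (V0 : ℕ) x nl s t, V0 ≤ B + 1 →
      Valid ι T col cb ns a0 vd m D R θ st V0 x nl s t →
      ¬ ∀ p, (st p).act = true → E (s p) (x p) (t p) := by
  have := Fintype.ofFinite (St C L B)
  have hm0 : 0 < m := by linarith
  by_contra hcon
  push Not at hcon
  let Z := (Fin (B + 1) → V) × (Fin L → V) × (Fin L → V)
  let W := ((Fin L → St C L B) × Fin (B + 2)) × (Fin L → Λ) × Z
  let val : W → Prop := fun w =>
    Valid ι T col cb ns a0 vd m D R θ w.1.1 w.1.2 w.2.1 w.2.2.1 w.2.2.2.1 w.2.2.2.2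
  let ev : W → Set (V → Λ → V → Prop) := fun w => {E ∈ Cfg ι T col cb g |
    ∀ p, (w.1.1 p).act = true → E (w.2.2.2.1 p) (w.2.1 p) (w.2.2.2.2 p)}
  let N : ℝ := (Cfg ι T col cb g).ncard
  have hN : 0 < N := Nat.cast_pos.2 ((Set.ncard_pos (Set.toFinite _)).2 hne)
  have hev : ∀ w, val w → ((ev w).ncard : ℝ) ≤
      N * m⁻¹ ^ (Finset.univ.filter fun p => (w.1.1 p).act = true).card := by
    rintro ⟨⟨st, V0⟩, x, nl, s, t⟩ hw
    let K := (Finset.univ.filter fun p => (st p).act = true).image fun p => (s p, x p, t p)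
    have hK : K.card = (Finset.univ.filter fun p => (st p).act = true).card := by
      refine Finset.card_image_of_injOn fun p hp q hq h => ?_
      simp only [Prod.mk.injEq] at h
      exact hw.dist1 p q (Finset.mem_filter.1 (Finset.mem_coe.1 hp)).2
        (Finset.mem_filter.1 (Finset.mem_coe.1 hq)).2 h.1 h.2.1
    have := prob_bound hι hι' hcb hd hcl K
      (hK.le.trans ((Finset.card_filter_le _ _).trans (by simp))) (by
        intro e he he'
        obtain ⟨p, hp, rfl⟩ := Finset.mem_image.1 he
        obtain ⟨q, hq, h⟩ := Finset.mem_image.1 he'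
        simp only [Prod.mk.injEq] at h
        exact hw.dist2 q p (Finset.mem_filter.1 hq).2 (Finset.mem_filter.1 hp).2 h.1 h.2.1)
    have e : {E ∈ Cfg ι T col cb g | ∀ e ∈ K, E e.1 e.2.1 e.2.2} = ev ⟨⟨st, V0⟩, x, nl, s, t⟩ := by
      ext E
      simp [K, ev]
    rw [e, hK] at this
    rw [inv_pow, ← div_eq_mul_inv, le_div_iff₀ (by positivity), hmn]
    simp only [N]
    exact_mod_cast this
  have hcov : N ≤ ∑ w ∈ Finset.univ.filter val, ((ev w).ncard : ℝ) := by
    have : Cfg ι T col cb g ⊆ ⋃ w ∈ Finset.univ.filter val, ev w := by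
      intro E hE
      obtain ⟨st, V0, x, nl, s, t, k1, k2, k3⟩ := hcon E hE
      simp only [Set.mem_iUnion]
      exact ⟨⟨⟨st, ⟨V0, by omega⟩⟩, x, nl, s, t⟩, Finset.mem_filter.2 ⟨Finset.mem_univ _, k2⟩,
        hE, k3⟩
    have := (Set.ncard_le_ncard this (Set.toFinite _)).trans (Finset.set_ncard_biUnion_le _ _)
    simp only [N]
    exact_mod_cast this
  have hsum : ∑ w ∈ Finset.univ.filter val,
      m⁻¹ ^ (Finset.univ.filter fun p => (w.1.1 p).act = true).card ≤
      (((L * Nat.card (St C L B) + 1) ^ B * (B + 2) : ℕ) : ℝ) *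
        (cV ^ (B + 1) * (1 + ε) ^ L * θ * H ^ B) := by
    let pat : (Fin L → St C L B) → Prop := fun st => (Finset.univ.filter fun p : Fin L =>
      ∀ p' : Fin L, p'.val + 1 = p.val → st p ≠ (st p').nx cb).card ≤ B
    have hc : 0 ≤ cV ^ (B + 1) * (1 + ε) ^ L * θ := by positivity
    rw [Finset.sum_filter, Fintype.sum_prod_type]
    calc _ ≤ ∑ y : (Fin L → St C L B) × Fin (B + 2),
          if pat y.1 then cV ^ (B + 1) * (1 + ε) ^ L * θ * H ^ B else 0 := by
          refine Finset.sum_le_sum fun y _ => ?_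
          split_ifs with hp
          · rw [Fintype.sum_prod_type]
            calc _ ≤ ∑ x : Fin L → Λ, if ValidX ι a0 y.1 x then
                  cV ^ (B + 1) * (1 + ε) ^ L * θ * D⁻¹ ^ nfree ns a0 y.1 x else 0 := by
                  refine Finset.sum_le_sum fun x _ => ?_
                  split_ifs with hx
                  · rw [← Finset.sum_filter]
                    refine le_trans (Finset.sum_le_card_nsmul _ _ (m⁻¹ ^ (Finset.univ.filter
                      fun p => (y.1 p).act = true).card) (fun z _ => le_rfl)) ?_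
                    rw [nsmul_eq_mul]
                    exact fiber_bound hm hD hR hθ hε hcV hn2 hn10 hV y.1 y.2
                      (by have := y.2.isLt; omega) x
                  · exact le_of_eq (Finset.sum_eq_zero fun z _ => if_neg fun k => hx k.vx)
              _ ≤ _ := by
                  rw [← Finset.sum_filter, ← Finset.mul_sum]
                  refine mul_le_mul_of_nonneg_left
                    (sum_labels ι a0 ns hh h1 h0 D H hD hH hH' hker y.1
                      (le_trans (Finset.card_le_card ?_) hp)) hc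
                  intro p hp'
                  refine Finset.mem_filter.2 ⟨Finset.mem_univ _, fun p' _ k => ?_⟩
                  have := (Finset.mem_filter.1 hp').2
                  rw [k] at this
                  exact absurd this (by simp [St.nx])
          · exact le_of_eq (Finset.sum_eq_zero fun z _ => if_neg fun k => hp k.pat)
      _ ≤ _ := by
          rw [← Finset.sum_filter, Finset.sum_const, nsmul_eq_mul]
          refine mul_le_mul_of_nonneg_right (Nat.cast_le.2 ?_) (by positivity)
          have e : (Finset.univ.filter fun y : (Fin L → St C L B) × Fin (B + 2) => pat y.1) =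
              (Finset.univ.filter pat) ×ˢ Finset.univ := by
            ext y
            simp
          rw [e, Finset.card_product, Finset.card_univ, Fintype.card_fin,
            Nat.card_eq_fintype_card]
          exact Nat.mul_le_mul_right _ (card_patterns (St.nx cb) L B)
  have := hcov.trans (Finset.sum_le_sum fun w hw => hev w (Finset.mem_filter.1 hw).2)
  rw [← Finset.mul_sum] at this
  nlinarith

end

end Vale.Agent.P201
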