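import Vale.Agent.P201.Wit

/-
The number of nodes of a cluster is bounded in terms of the number of blocks.
-/

namespace Vale.Agent.P201

open Equiv Classical Vale.Agent.P194

namespace Dat

variable {S V D : Type} {Q : Dat S V D}

theorem Ok.path_pair (h : Q.Ok) {d1 d2 e1 e2 : D} (a1 : d1 ∈ Q.Y) (a2 : d2 ∈ Q.Y) (b1 : e1 ∈ Q.Y)
    (b2 : e2 ∈ Q.Y) (c1 : Q.blk d1 = Q.blk d2) (c2 : Q.blk e1 = Q.blk e2)
    (hlt : Q.idx d1 < Q.idx d2) (s1 : Q.src e1 = Q.src d1) (s2 : Q.src e2 = Q.src d2) :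
    (Q.lt d1 = Q.lt e1 ∨ Q.lt d1 = linv (Q.lt (Q.σ⁻¹ e1))) ∧
      (linv (Q.lt (Q.σ⁻¹ d2)) = Q.lt e2 ∨ linv (Q.lt (Q.σ⁻¹ d2)) = linv (Q.lt (Q.σ⁻¹ e2))) := by
  have i1 := h.hidx d2 a2
  have i2 := h.hidx e1 b1
  have i3 := h.hidx e2 b2
  have i4 := h.hg
  have hd : ∀ d k, (Q.wd d (k + 1)).head? = some (Q.lt d) := fun _ _ => rfl
  have ls : ∀ d k, (Q.wd d (k + 1)).getLast? = some (Q.lt (Q.σ⁻¹ ((Q.σ ^ (k + 1)) d))) := by
    intro d k
    rw [wd_succ', pow_succ', Perm.mul_apply]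
    simp
  obtain ⟨k, hk⟩ := Nat.exists_eq_add_of_lt hlt
  have p1 := h.path_wd (k + 1) d1
  have q1 := h.pow a1 a2 c1 (k := k + 1) (by omega)
  rw [← q1] at p1
  rcases le_total (Q.idx e1) (Q.idx e2) with c | c
  · obtain ⟨n, hn⟩ := Nat.exists_eq_add_of_le c
    have p2 := h.path_wd n e1
    have q2 := h.pow b1 b2 c2 hn
    rw [← q2, s1, s2] at p2
    have e := h.girth.eq_of_paths linv_linv h.symm h.det (h.red_wd _ _) (h.red_wd _ _) p1 p2
      (by rw [length_wd, length_wd]; omega)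
    obtain rfl : k + 1 = n := by rw [← Q.length_wd (k + 1) d1, e, length_wd]
    have f1 := congrArg List.head? e
    have f2 := congrArg List.getLast? e
    rw [hd, hd] at f1
    rw [ls, ls, ← q1, ← q2] at f2
    exact ⟨Or.inl (Option.some.inj f1), Or.inr (by rw [Option.some.inj f2])⟩
  · obtain ⟨n, hn⟩ := Nat.exists_eq_add_of_le c
    have p2 := (h.path_wd n e2).inv h.symm
    have q2 := h.pow b2 b1 c2.symm hn
    rw [← q2, s1, s2] at p2
    have e := h.girth.eq_of_paths linv_linv h.symm h.det (h.red_wd _ _)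
      ((h.red_wd _ _).winv linv_linv) p1 p2 (by rw [length_winv, length_wd, length_wd]; omega)
    obtain rfl : k + 1 = n := by rw [← Q.length_wd (k + 1) d1, e, length_winv, length_wd]
    have f1 := congrArg List.head? e
    have f2 := congrArg List.getLast? e
    rw [hd, head?_winv, ls, ← q2] at f1
    rw [ls, getLast?_winv, hd, ← q1] at f2
    exact ⟨Or.inr (Option.some.inj f1), Or.inl (by rw [Option.some.inj f2, linv_linv])⟩

theorem Ok.branch_le [Fintype V] (h : Q.Ok) (c c' : ℕ) :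
    (Finset.univ.filter fun v => ∃ d ∈ Q.Y, ∃ e ∈ Q.Y, Q.blk d = c ∧ Q.blk e = c' ∧
      Q.src d = v ∧ Q.src e = v ∧ ¬ ((Q.lt d = Q.lt e ∨ Q.lt d = linv (Q.lt (Q.σ⁻¹ e))) ∧
        (linv (Q.lt (Q.σ⁻¹ d)) = Q.lt e ∨
          linv (Q.lt (Q.σ⁻¹ d)) = linv (Q.lt (Q.σ⁻¹ e))))).card ≤ 2 := by
  by_contra hn
  obtain ⟨v1, v2, v3, m1, m2, m3, n1, n2, n3⟩ := Finset.two_lt_card_iff.1 (not_le.1 hn)
  obtain ⟨d1, x1, e1, y1, a1, b1, s1, t1, z1⟩ := (Finset.mem_filter.1 m1).2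
  obtain ⟨d2, x2, e2, y2, a2, b2, s2, t2, z2⟩ := (Finset.mem_filter.1 m2).2
  obtain ⟨d3, x3, e3, y3, a3, b3, s3, t3, z3⟩ := (Finset.mem_filter.1 m3).2
  have ne : ∀ {d d'}, d ∈ Q.Y → d' ∈ Q.Y → Q.blk d = Q.blk d' → Q.src d ≠ Q.src d' →
      Q.idx d ≠ Q.idx d' := by
    intro d d' k1 k2 k3 k4 k5
    exact k4 (by rw [h.pow k1 k2 k3 (k := 0) k5.symm]; rfl)
  have o12 := ne x1 x2 (a1.trans a2.symm) (by rwa [s1, s2])
  have o13 := ne x1 x3 (a1.trans a3.symm) (by rwa [s1, s3])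
  have o23 := ne x2 x3 (a2.trans a3.symm) (by rwa [s2, s3])
  have p12 := fun k => h.path_pair x1 x2 y1 y2 (a1.trans a2.symm) (b1.trans b2.symm) k
    (t1.trans s1.symm) (t2.trans s2.symm)
  have p21 := fun k => h.path_pair x2 x1 y2 y1 (a2.trans a1.symm) (b2.trans b1.symm) k
    (t2.trans s2.symm) (t1.trans s1.symm)
  have p13 := fun k => h.path_pair x1 x3 y1 y3 (a1.trans a3.symm) (b1.trans b3.symm) k
    (t1.trans s1.symm) (t3.trans s3.symm)
  have p31 := fun k => h.path_pair x3 x1 y3 y1 (a3.trans a1.symm) (b3.trans b1.symm) k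
    (t3.trans s3.symm) (t1.trans s1.symm)
  have p23 := fun k => h.path_pair x2 x3 y2 y3 (a2.trans a3.symm) (b2.trans b3.symm) k
    (t2.trans s2.symm) (t3.trans s3.symm)
  have p32 := fun k => h.path_pair x3 x2 y3 y2 (a3.trans a2.symm) (b3.trans b2.symm) k
    (t3.trans s3.symm) (t2.trans s2.symm)
  rcases lt_or_gt_of_ne o12 with k1 | k1 <;> rcases lt_or_gt_of_ne o13 with k2 | k2 <;>
    rcases lt_or_gt_of_ne o23 with k3 | k3
  · exact z2 ⟨(p23 k3).1, (p12 k1).2⟩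
  · exact z3 ⟨(p32 k3).1, (p13 k2).2⟩
  · omega
  · exact z1 ⟨(p12 k1).1, (p31 k2).2⟩
  · exact z1 ⟨(p13 k2).1, (p21 k1).2⟩
  · omega
  · exact z3 ⟨(p31 k2).1, (p23 k3).2⟩
  · exact z2 ⟨(p21 k1).1, (p32 k3).2⟩

theorem Ok.card_G1 [Fintype V] (h : Q.Ok) (hX : (Q.Y.filter fun d => Q.σ d ∉ Q.Y).card ≤ Q.K) :
    (Finset.univ.filter fun v => ¬ Q.G1 v).card ≤ 2 * Q.K + Q.K * (Q.K * 2) := by
  have h0 : (Q.Y.filter fun d => Q.idx d = 0).card ≤ Q.K := by
    refine le_trans (Finset.card_le_card_of_injOn Q.blk ?_ ?_) (Finset.card_range Q.K).le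
    · intro d hd
      exact Finset.mem_coe.2 (Finset.mem_range.2
        (h.hblk d (Finset.mem_filter.1 (Finset.mem_coe.1 hd)).1))
    · intro d hd d' hd' e
      have a1 := Finset.mem_filter.1 (Finset.mem_coe.1 hd)
      have a2 := Finset.mem_filter.1 (Finset.mem_coe.1 hd')
      exact h.hst d a1.1 d' a2.1 a1.2 a2.2 e
  refine le_trans (Finset.card_le_card (t := ((Q.Y.filter fun d => Q.idx d = 0).image Q.src ∪
    (Q.Y.filter fun d => Q.σ d ∉ Q.Y).image fun d => Q.src (Q.σ d)) ∪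
    (Finset.range Q.K).biUnion fun c => (Finset.range Q.K).biUnion fun c' =>
      Finset.univ.filter fun v => ∃ d ∈ Q.Y, ∃ e ∈ Q.Y, Q.blk d = c ∧ Q.blk e = c' ∧
      Q.src d = v ∧ Q.src e = v ∧ ¬ ((Q.lt d = Q.lt e ∨ Q.lt d = linv (Q.lt (Q.σ⁻¹ e))) ∧
        (linv (Q.lt (Q.σ⁻¹ d)) = Q.lt e ∨
          linv (Q.lt (Q.σ⁻¹ d)) = linv (Q.lt (Q.σ⁻¹ e))))) ?_) ?_
  · intro v hv
    have hv := (Finset.mem_filter.1 hv).2
    by_contra hn
    simp only [Finset.mem_union, not_or, Finset.mem_image, Finset.mem_filter, not_exists, not_and,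
      Finset.mem_biUnion, Finset.mem_range, Finset.mem_univ, true_and, and_imp] at hn
    obtain ⟨⟨n1, n2⟩, n3⟩ := hn
    have inn : ∀ u : D × Bool, u.1 ∈ Q.Y → Q.vt u = v → Q.Inn u := by
      rintro ⟨d, _ | _⟩ hd e
      · obtain ⟨a1, a2, a3⟩ := h.hin d hd fun k => n1 d hd k e
        exact ⟨a1, a2, Or.inr ⟨rfl, a3⟩⟩
      · have a0 : Q.σ d ∈ Q.Y := by
          by_contra k
          exact n2 d hd k e
        obtain ⟨a1, a2, a3⟩ := h.hin _ a0 fun k => n1 _ a0 k e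
        rw [show Q.σ⁻¹ (Q.σ d) = d by simp] at a2 a3
        exact ⟨a0, a2.symm, Or.inl ⟨rfl, a3.symm⟩⟩
    have norm : ∀ u : D × Bool, u.1 ∈ Q.Y → Q.vt u = v → ∃ d ∈ Q.Y, Q.src d = v ∧
        (u = (d, false) ∨ u = Q.nb (d, false)) := by
      rintro ⟨d, _ | _⟩ hd e
      · exact ⟨d, hd, e, Or.inl rfl⟩
      · exact ⟨Q.σ d, (inn _ hd e).1, e, Or.inr (by simp [nb])⟩
    refine hv fun u hu e => ⟨inn u hu e, fun u' hu' e' => ?_⟩
    obtain ⟨x, x1, x2, x3⟩ := norm u hu e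
    obtain ⟨y, y1, y2, y3⟩ := norm u' hu' e'
    have := n3 _ (h.hblk y y1) _ (h.hblk x x1) y y1 x x1 rfl rfl y2 x2
    have k : Q.la u' = Q.la (x, false) ∨ Q.la u' = Q.la (Q.nb (x, false)) := by
      simp only [la, nb]
      rcases y3 with rfl | rfl <;> simp only [la, nb] <;> tauto
    have k' : Q.la u' = Q.la u ∨ Q.la u' = Q.la (Q.nb u) := by
      rcases x3 with rfl | rfl
      · exact k
      · rw [nb_nb]
        exact k.symm
    exact k'.imp (fun k => Prod.ext (e'.trans e.symm) k)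
      (fun k => Prod.ext (e'.trans ((Q.vt_nb u).trans e).symm) k)
  · refine (Finset.card_union_le _ _).trans (add_le_add ((Finset.card_union_le _ _).trans ?_) ?_)
    · have a1 := Finset.card_image_le (s := Q.Y.filter fun d => Q.idx d = 0) (f := Q.src)
      have a2 := Finset.card_image_le (s := Q.Y.filter fun d => Q.σ d ∉ Q.Y)
        (f := fun d => Q.src (Q.σ d))
      omega
    · refine (Finset.card_biUnion_le_card_mul _ _ (Q.K * 2) fun c _ => ?_).trans (by simp)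
      exact (Finset.card_biUnion_le_card_mul _ _ 2 fun c' _ => h.branch_le c c').trans (by simp)

theorem Ok.card_half [Fintype V] (h : Q.Ok) (P : V → Prop) [DecidablePred P] :
    ((Q.Y ×ˢ Finset.univ).filter fun u => P (Q.vt u)).card ≤
      (Finset.univ.filter P).card * (Q.K * 2) := by
  refine le_trans (Finset.card_le_card (t := (Finset.univ.filter P).biUnion fun v =>
    (Q.Y ×ˢ Finset.univ).filter fun u => Q.vt u = v) ?_)
    (Finset.card_biUnion_le_card_mul _ _ _ fun v _ => ?_)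
  · intro u hu
    obtain ⟨a1, a2⟩ := Finset.mem_filter.1 hu
    exact Finset.mem_biUnion.2 ⟨_, Finset.mem_filter.2 ⟨Finset.mem_univ _, a2⟩,
      Finset.mem_filter.2 ⟨a1, rfl⟩⟩
  · refine le_trans (Finset.card_le_card_of_injOn (t := Finset.range Q.K ×ˢ Finset.univ)
      (fun u : D × Bool => (Q.blk u.1, u.2)) ?_ ?_) (by simp)
    · intro u hu
      exact Finset.mem_coe.2 (Finset.mem_product.2 ⟨Finset.mem_range.2 (h.hblk _
        (Finset.mem_product.1 (Finset.mem_filter.1 (Finset.mem_coe.1 hu)).1).1),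
        Finset.mem_univ _⟩)
    · rintro ⟨d, b⟩ hu ⟨d', b'⟩ hu' e
      obtain ⟨a1, a2⟩ := Finset.mem_filter.1 (Finset.mem_coe.1 hu)
      obtain ⟨a3, a4⟩ := Finset.mem_filter.1 (Finset.mem_coe.1 hu')
      simp only [Prod.mk.injEq] at e
      obtain ⟨e, rfl⟩ := e
      have a1 := (Finset.mem_product.1 a1).1
      have a3 := (Finset.mem_product.1 a3).1
      cases b
      · exact Prod.ext (h.src_inj a1 a3 e (a2.trans a4.symm)) rfl
      · exact Prod.ext (h.tgt_inj a1 a3 e (a2.trans a4.symm)) rfl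

/-- The bound for the number of half darts at nodes. -/
def nodeBound (K : ℕ) : ℕ :=
  ((2 * K + K * (K * 2)) + K + (2 * K + K * (K * 2)) * (K * 2)) * (K * 2)

theorem Ok.card_badH [Fintype V] (h : Q.Ok) (hX : (Q.Y.filter fun d => Q.σ d ∉ Q.Y).card ≤ Q.K)
    (hC : (Q.Y.filter fun d => Q.σ (Q.τ (Q.σ (Q.τ d))) ≠ d).card ≤ Q.K) :
    Q.badH.card ≤ nodeBound Q.K := by
  have a1 := h.card_G1 hX
  have a2 := (h.card_half fun v => ¬ Q.G1 v).trans (Nat.mul_le_mul_right _ a1)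
  refine (h.card_half fun v => ¬ Q.G2 v).trans (Nat.mul_le_mul_right _ ?_)
  refine le_trans (Finset.card_le_card (t := ((Finset.univ.filter fun v => ¬ Q.G1 v) ∪
    (Q.Y.filter fun d => Q.σ (Q.τ (Q.σ (Q.τ d))) ≠ d).image Q.src) ∪
    ((Q.Y ×ˢ Finset.univ).filter fun u => ¬ Q.G1 (Q.vt u)).image fun u => Q.vt (Q.mir u)) ?_) ?_
  · intro v hv
    have hv := (Finset.mem_filter.1 hv).2
    by_contra hn
    simp only [Finset.mem_union, not_or, Finset.mem_image, Finset.mem_filter, not_exists, not_and,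
      Finset.mem_univ, true_and, not_not, and_imp, Finset.mem_product, and_true] at hn
    obtain ⟨⟨n1, n2⟩, n3⟩ := hn
    have cor : ∀ d ∈ Q.Y, Q.src d = v → Q.mir (Q.nb (d, false)) = Q.nb (Q.mir (d, false)) := by
      intro d hd e
      have : Q.σ (Q.τ (Q.σ (Q.τ d))) = d := by
        by_contra k
        exact n2 d hd k e
      refine Prod.ext ?_ rfl
      change Q.τ (Q.σ⁻¹ d) = Q.σ (Q.τ d)
      conv_lhs => rw [← this]
      simp [h.dg.invol]
    refine hv ⟨n1, fun u hu e => ⟨?_, fun k => ?_⟩⟩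
    · obtain ⟨d, _ | _⟩ := u
      · exact cor d hu e
      · have := cor (Q.σ d) (n1 _ hu e).1.1 e
        change Q.mir (Q.nb (Q.nb (d, true))) = Q.nb (Q.mir (Q.nb (d, true))) at this
        rw [nb_nb] at this
        rw [this, nb_nb]
    · by_contra k'
      exact n3 _ k k' (by rw [h.mir_mir, e])
  · refine (Finset.card_union_le _ _).trans (add_le_add ((Finset.card_union_le _ _).trans
      (add_le_add a1 (Finset.card_image_le.trans hC))) (Finset.card_image_le.trans a2))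

end Dat

end Vale.Agent.P201
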