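import Vale.Agent.P201.Sums
import Vale.Agent.P201.Nodes
import Vale.Agent.P201.Cluster

/-
Every reduced spherical diagram contains a cluster which gives a witness.
-/

namespace Vale.Agent.P201

open Equiv Classical Vale.Agent.P194

section
variable {D : Type} [Fintype D]

theorem exists_sep_set (σ : Perm D) (a : ℕ) (ha : 0 < a) : ∃ St : Finset D,
    St.card * a ≤ Fintype.card D ∧
    ∀ d, (∀ j, 0 < j → j < a → (σ ^ j) d ≠ d) → ∃ s ∈ St, ∃ i, i < 2 * a ∧ (σ ^ i) s = d := by
  obtain ⟨St, hSt, hmax⟩ := Set.exists_max_image {St : Finset D | ∀ s ∈ St, ∀ s' ∈ St, ∀ i j,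
    i < a → j < a → (σ ^ i) s = (σ ^ j) s' → s = s' ∧ i = j} Finset.card (Set.toFinite _)
    ⟨∅, by simp⟩
  refine ⟨St, ?_, fun d hd => ?_⟩
  · have : St.card * a = (St ×ˢ Finset.range a).card := by simp
    rw [this, ← Finset.card_univ]
    refine Finset.card_le_card_of_injOn (fun p => (σ ^ p.2) p.1) (fun _ _ => by simp) ?_
    intro p hp q hq e
    obtain ⟨a1, a2⟩ := Finset.mem_product.1 (Finset.mem_coe.1 hp)
    obtain ⟨a3, a4⟩ := Finset.mem_product.1 (Finset.mem_coe.1 hq)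
    have := hSt _ a1 _ a3 _ _ (Finset.mem_range.1 a2) (Finset.mem_range.1 a4) e
    exact Prod.ext this.1 this.2
  · by_contra hn
    push Not at hn
    obtain ⟨e, rfl⟩ := (σ ^ (a - 1)).surjective d
    have add : ∀ i j x, (σ ^ i) ((σ ^ j) x) = (σ ^ (i + j)) x := fun i j x => by
      rw [pow_add, Perm.mul_apply]
    have he : e ∉ St := fun k => hn e k (a - 1) (by omega) rfl
    have cross : ∀ s ∈ St, ∀ i j, i < a → j < a → (σ ^ i) e ≠ (σ ^ j) s := by
      intro s hs i j hi hj k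
      refine hn s hs (a - 1 - i + j) (by omega) ?_
      rw [← add, ← k, add]
      congr 2
      omega
    have self : ∀ i j, i < j → j < a → (σ ^ i) e ≠ (σ ^ j) e := by
      intro i j hij hj k
      refine hd (j - i) (by omega) (by omega) ((σ ^ i).injective ?_)
      rw [add, add, add, show i + (j - i) + (a - 1) = (a - 1) + j by omega, ← add, ← k, add,
        add_comm]
    have := hmax (insert e St) (by
      intro s hs s' hs' i j hi hj k
      rcases Finset.mem_insert.1 hs with rfl | ht <;> rcases Finset.mem_insert.1 hs' with rfl | ht'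
      · refine ⟨rfl, ?_⟩
        rcases lt_trichotomy i j with c | c | c
        · exact absurd k (self i j c hj)
        · exact c
        · exact absurd k.symm (self j i c hi)
      · exact absurd k (cross _ ht' i j hi hj)
      · exact absurd k.symm (cross _ ht j i hj hi)
      · exact hSt _ ht _ ht' i j hi hj k)
    rw [Finset.card_insert_of_notMem he] at this
    omega

theorem exists_cut {σ τ : Perm D} (hP : Planar σ τ) (St : Finset D) : ∃ f : Perm D,
    Planar f τ ∧ (∀ d, σ d ∉ St → f d = σ d) ∧ (∀ d, σ d ∈ St → f d ∈ St) ∧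
    (∀ s ∈ St, ∀ s' ∈ St, sc f s s' → s = s') ∧ sc f ≤ sc σ := by
  induction St using Finset.induction_on with
  | empty => exact ⟨σ, hP, fun _ _ => rfl, by simp, by simp, le_rfl⟩
  | insert s St hs ih =>
    obtain ⟨f, f1, f2, f3, f4, f5⟩ := ih
    by_cases h : ∃ s0 ∈ St, sc f s0 s
    · obtain ⟨s0, h0, h1⟩ := h
      have hne : s0 ≠ s := fun k => hs (k ▸ h0)
      have a1 : sc f (f⁻¹ s0) s0 := by simpa using sc_apply f (f⁻¹ s0)
      have a2 : sc f (f⁻¹ s) s := by simpa using sc_apply f (f⁻¹ s)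
      have a3 : sc f (f⁻¹ s0) (f⁻¹ s) := (sc f).trans' a1 ((sc f).trans' h1 ((sc f).symm' a2))
      have a4 := sc_split_le a3
      have a5 := sc_split_not (fun k => hne (f⁻¹.injective k)) a3
      have a6 := (f1.symm.split a3).symm
      rw [← swap_mul_eq_mul_swap] at a4 a5 a6
      have a7 : ¬ sc (swap s0 s * f) s0 s := by
        intro k
        have b1 := sc_apply (swap s0 s * f) (f⁻¹ s0)
        have b2 := sc_apply (swap s0 s * f) (f⁻¹ s)
        simp only [Perm.mul_apply, Perm.coe_inv, apply_symm_apply, swap_apply_left,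
          swap_apply_right] at b1 b2
        exact a5 ((sc _).trans' b1 ((sc _).symm' ((sc _).trans' b2 k)))
      refine ⟨swap s0 s * f, a6, ?_, ?_, ?_, a4.trans f5⟩
      · intro d hd
        rw [Finset.mem_insert, not_or] at hd
        rw [Perm.mul_apply, f2 d hd.2, swap_apply_of_ne_of_ne (fun k : σ d = s0 => hd.2 (k ▸ h0)) hd.1]
      · intro d hd
        have : f d ∈ insert s St := by
          by_cases c : σ d ∈ St
          · exact Finset.mem_insert_of_mem (f3 d c)
          · rwa [f2 d c]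
        rw [Perm.mul_apply, swap_apply_def]
        split_ifs
        · exact Finset.mem_insert_self _ _
        · exact Finset.mem_insert_of_mem h0
        · exact this
      · intro x hx y hy k
        rcases Finset.mem_insert.1 hx with rfl | hu <;> rcases Finset.mem_insert.1 hy with rfl | hv
        · rfl
        · obtain rfl := f4 _ h0 _ hv ((sc f).trans' h1 (a4 k))
          exact absurd ((sc _).symm' k) a7
        · obtain rfl := f4 _ h0 _ hu ((sc f).trans' h1 ((sc f).symm' (a4 k)))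
          exact absurd k a7
        · exact f4 _ hu _ hv (a4 k)
    · refine ⟨f, f1, fun d hd => f2 d fun k => hd (Finset.mem_insert_of_mem k), ?_, ?_, f5⟩
      · intro d hd
        by_cases c : σ d ∈ St
        · exact Finset.mem_insert_of_mem (f3 d c)
        · rwa [f2 d c]
      · intro x hx y hy k
        rcases Finset.mem_insert.1 hx with rfl | hu <;> rcases Finset.mem_insert.1 hy with rfl | hv
        · rfl
        · exact absurd ⟨_, hv, (sc f).symm' k⟩ h
        · exact absurd ⟨_, hu, k⟩ h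
        · exact f4 _ hu _ hv k

theorem cut_size {σ f : Perm D} {St : Finset D} {a : ℕ}
    (hSt : ∀ d, (∀ j, 0 < j → j < a → (σ ^ j) d ≠ d) → ∃ s ∈ St, ∃ i, i < 2 * a ∧ (σ ^ i) s = d)
    (f2 : ∀ d, σ d ∉ St → f d = σ d) (f4 : ∀ s ∈ St, ∀ s' ∈ St, sc f s s' → s = s')
    (f5 : sc f ≤ sc σ) (x : D) : (Finset.univ.filter fun y => sc f x y).card ≤ 2 * a := by
  have img : ∀ s, (∀ y, sc f x y → ∃ i, i < 2 * a ∧ (σ ^ i) s = y) →
      (Finset.univ.filter fun y => sc f x y).card ≤ 2 * a := by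
    intro s hs
    refine le_trans (Finset.card_le_card (t := (Finset.range (2 * a)).image fun i => (σ ^ i) s) ?_)
      (Finset.card_image_le.trans (by simp))
    intro y hy
    obtain ⟨i, h1, h2⟩ := hs y (Finset.mem_filter.1 hy).2
    exact Finset.mem_image.2 ⟨i, Finset.mem_range.2 h1, h2⟩
  by_cases hx : ∀ j, 0 < j → j < a → (σ ^ j) x ≠ x
  · have near : ∀ i, ∀ s ∈ St, ∃ s' ∈ St, ∃ i', i' ≤ i ∧ (σ ^ i') s' = (σ ^ i) s ∧
        sc f s' ((σ ^ i) s) := by
      intro i s hs
      induction i with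
      | zero => exact ⟨s, hs, 0, le_rfl, rfl, (sc f).refl' _⟩
      | succ i ih =>
        obtain ⟨s', h1, i', h2, h3, h4⟩ := ih
        rw [pow_succ', Perm.mul_apply]
        by_cases c : σ ((σ ^ i) s) ∈ St
        · exact ⟨_, c, 0, by omega, rfl, (sc f).refl' _⟩
        · refine ⟨s', h1, i' + 1, by omega, by rw [pow_succ', Perm.mul_apply, h3], ?_⟩
          rw [← f2 _ c]
          exact (sc f).trans' h4 (sc_apply f _)
    have key : ∀ y, sc f x y → ∃ s ∈ St, ∃ i, i < 2 * a ∧ (σ ^ i) s = y ∧ sc f s y := by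
      intro y hy
      obtain ⟨n, rfl⟩ := Perm.SameCycle.exists_nat_pow_eq (f5 hy)
      obtain ⟨s, h1, i, h2, h3⟩ := hSt ((σ ^ n) x) (by
        intro j j1 j2 k
        refine hx j j1 j2 ((σ ^ n).injective ?_)
        rw [← Perm.mul_apply, ← pow_add, add_comm, pow_add, Perm.mul_apply, k])
      obtain ⟨s', k1, i', k2, k3, k4⟩ := near i s h1
      rw [h3] at k3 k4
      exact ⟨s', k1, i', by omega, k3, k4⟩
    obtain ⟨s, s1, -, -, -, s2⟩ := key x ((sc f).refl' x)
    refine img s fun y hy => ?_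
    obtain ⟨s', k1, i, k2, k3, k4⟩ := key y hy
    obtain rfl := f4 _ s1 _ k1 ((sc f).trans' s2 ((sc f).trans' hy ((sc f).symm' k4)))
    exact ⟨i, k2, k3⟩
  · push Not at hx
    obtain ⟨j, j1, j2, j3⟩ := hx
    refine img x fun y hy => ?_
    obtain ⟨i, h1, h2⟩ := sc_inv (f := σ) (p := fun y => ∃ i, i < j ∧ (σ ^ i) x = y) (by
      rintro _ ⟨i, hi, rfl⟩
      by_cases c : i + 1 < j
      · exact ⟨i + 1, c, by rw [pow_succ']; rfl⟩
      · refine ⟨0, j1, ?_⟩
        rw [← Perm.mul_apply, ← pow_succ', show i + 1 = j by omega, j3]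
        rfl) (f5 hy) ⟨0, j1, rfl⟩
    exact ⟨i, by omega, h2⟩

theorem corner_bound {σ τ : Perm D} (hP : Planar σ τ) {g : ℕ}
    (hσ : ∀ d j, 0 < j → j < g → (σ ^ j) d ≠ d) (hτ : ∀ d, τ d ≠ d) (hν : ∀ d, σ (τ d) ≠ d) :
    (Finset.univ.filter fun d => σ (τ (σ (τ d))) ≠ d).card * g ≤ 6 * Fintype.card D := by
  have h1 := nq_weight (sc σ) (fun _ => 1) g (by
    intro x
    rw [← Finset.card_eq_sum_ones]
    refine le_trans (Finset.card_range g).ge (Finset.card_le_card_of_injOn (fun i => (σ ^ i) x)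
      (fun i _ => Finset.mem_coe.2 (Finset.mem_filter.2 ⟨Finset.mem_univ _, ⟨i, by simp⟩⟩)) ?_)
    have self : ∀ i j, i < j → j < g → (σ ^ i) x ≠ (σ ^ j) x := by
      intro i j hij hj k
      refine hσ x (j - i) (by omega) (by omega) ((σ ^ i).injective ?_)
      rw [← Perm.mul_apply, ← pow_add, k]
      congr 2
      omega
    intro i hi j hj k
    have hi := Finset.mem_range.1 (Finset.mem_coe.1 hi)
    have hj := Finset.mem_range.1 (Finset.mem_coe.1 hj)
    rcases lt_trichotomy i j with c | c | c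
    · exact absurd k (self i j c hj)
    · exact c
    · exact absurd k.symm (self j i c hi))
  have h2 := nq_weight (sc τ) (fun _ => 1) 2 (by
    intro x
    rw [← Finset.card_eq_sum_ones, ← Finset.card_pair (hτ x)]
    refine Finset.card_le_card fun y hy => Finset.mem_filter.2 ⟨Finset.mem_univ _, ?_⟩
    rcases Finset.mem_insert.1 hy with rfl | hy
    · exact sc_apply τ x
    · rw [Finset.mem_singleton.1 hy])
  have h3 := nq_weight (sc (σ * τ)) (fun d => if σ (τ (σ (τ d))) ≠ d then 2 else 3) 6 (by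
    intro x
    have s1 : sc (σ * τ) x (σ (τ x)) := sc_apply (σ * τ) x
    have s2 : sc (σ * τ) x (σ (τ (σ (τ x)))) := (sc _).trans' s1 (sc_apply (σ * τ) _)
    by_cases c : σ (τ (σ (τ x))) = x
    · refine le_trans ?_ (Finset.sum_le_sum_of_subset (s := {x, σ (τ x)}) ?_)
      · rw [Finset.sum_pair (hν x).symm]
        simp [c]
      · intro y hy
        refine Finset.mem_filter.2 ⟨Finset.mem_univ _, ?_⟩
        rcases Finset.mem_insert.1 hy with rfl | hy
        · exact (sc _).refl' _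
        · rw [Finset.mem_singleton.1 hy]
          exact s1
    · refine le_trans ?_ (Finset.sum_le_sum_of_subset (s := {x, σ (τ x), σ (τ (σ (τ x)))}) ?_)
      · rw [Finset.sum_insert (by simp [(hν x).symm, Ne.symm c]), Finset.sum_pair (hν _).symm]
        split_ifs <;> omega
      · intro y hy
        refine Finset.mem_filter.2 ⟨Finset.mem_univ _, ?_⟩
        simp only [Finset.mem_insert, Finset.mem_singleton] at hy
        rcases hy with rfl | rfl | rfl
        · exact (sc _).refl' _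
        · exact s1
        · exact s2)
  rw [← Finset.card_eq_sum_ones, Finset.card_univ] at h1 h2
  rw [Finset.sum_ite, Finset.sum_const, Finset.sum_const, smul_eq_mul, smul_eq_mul] at h3
  have h4 := Finset.card_filter_add_card_filter_not (s := Finset.univ)
    (fun d => σ (τ (σ (τ d))) ≠ d)
  rw [Finset.card_univ] at h4
  unfold Planar at hP
  rw [Nat.card_eq_fintype_card] at hP
  have h5 : (Finset.univ.filter fun d => σ (τ (σ (τ d))) ≠ d).card ≤ 6 * nq (sc σ) := by omega
  calc _ ≤ 6 * nq (sc σ) * g := Nat.mul_le_mul_right _ h5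
    _ = 6 * (g * nq (sc σ)) := by ring
    _ ≤ _ := Nat.mul_le_mul_left _ h1

omit [Fintype D] in
theorem exists_blocks (σ : Perm D) (T Y : Finset D) {l : ℕ}
    (hT : ∀ d, ∃ s ∈ T, ∃ i, i < l ∧ (σ ^ i) s = d) (hY : ∀ d ∈ Y, d ∉ T → σ⁻¹ d ∈ Y) :
    ∃ blk idx : D → ℕ, (∀ d ∈ Y, blk d < (Y ∩ T).card) ∧ (∀ d ∈ Y, idx d < l) ∧
      (∀ d ∈ Y, idx d ≠ 0 → σ⁻¹ d ∈ Y ∧ blk (σ⁻¹ d) = blk d ∧ idx (σ⁻¹ d) + 1 = idx d) ∧
      (∀ d ∈ Y, ∀ d' ∈ Y, idx d = 0 → idx d' = 0 → blk d = blk d' → d = d') := by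
  have hex : ∀ d, ∃ i, (σ⁻¹ ^ i) d ∈ T := by
    intro d
    obtain ⟨s, h1, i, -, rfl⟩ := hT d
    exact ⟨i, by simpa [inv_pow] using h1⟩
  let idx : D → ℕ := fun d => Nat.find (hex d)
  let base : D → D := fun d => (σ⁻¹ ^ idx d) d
  have i0 : ∀ d, idx d = 0 ↔ d ∈ T := fun d => Nat.find_eq_zero _
  have i1 : ∀ d, idx d ≠ 0 → idx (σ⁻¹ d) + 1 = idx d := by
    intro d hd
    exact (Nat.find_comp_succ (hex d) (hex (σ⁻¹ d)) (fun k => hd ((i0 d).2 k))).symm
  have b1 : ∀ d, idx d ≠ 0 → base (σ⁻¹ d) = base d := by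
    intro d hd
    simp only [base]
    rw [← i1 d hd, pow_succ, Perm.mul_apply]
  have b2 : ∀ n, ∀ d ∈ Y, idx d = n → base d ∈ Y := by
    intro n
    induction n with
    | zero =>
      intro d hd e
      simp only [base, e]
      exact hd
    | succ n ih =>
      intro d hd e
      have := i1 d (by omega)
      rw [← b1 d (by omega)]
      exact ih _ (hY d hd fun k => by have := (i0 d).2 k; omega) (by omega)
  have b3 : ∀ d ∈ Y, base d ∈ (Y ∩ T).toList := fun d hd =>
    Finset.mem_toList.2 (Finset.mem_inter.2 ⟨b2 _ d hd rfl, Nat.find_spec (hex d)⟩)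
  refine ⟨fun d => (Y ∩ T).toList.idxOf (base d), idx, fun d hd => ?_, fun d _ => ?_,
    fun d hd k => ⟨hY d hd fun k' => k ((i0 d).2 k'), by simp only [b1 d k], i1 d k⟩, ?_⟩
  · rw [← Finset.length_toList]
    exact List.idxOf_lt_length_of_mem (b3 d hd)
  · obtain ⟨s, h1, i, h2, rfl⟩ := hT d
    exact lt_of_le_of_lt (Nat.find_min' _ (by simpa [inv_pow] using h1)) h2
  · intro d hd d' _ e1 e2 e3
    have := (List.idxOf_inj (b3 d hd)).1 e3
    simpa only [base, e1, e2, pow_zero, Perm.one_apply] using this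

end

theorem noDiagram_of_no_witness {S V C : Type} [Fintype V] {E : V → S × Bool → V → Prop}
    {a' K L B : ℕ} [NeZero L] (ha' : 0 < a') (hK : 1081344000000000 ≤ K) (hL : L = K * (2 * a'))
    (hB : 2 * Dat.nodeBound K + 1 ≤ B) (hs : Symm linv E) (hd : Det E)
    (hg : Girth linv E (4 * a')) {T : V → S × Bool → Prop} {col : V → C} {cb : C → C}
    (typ : ∀ v a v', E v a v' → T v a ∧ col v' = cb (col v)) {ns : S × Bool → S × Bool → Prop}
    (hsym : ∀ a b, ns a b → ns (linv b) (linv a)) (hcons : ∀ a b c, ns a b ∨ ns b c)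
    (a0 : S × Bool) (vd : V) {a b c t : ℝ} (ha : 0 ≤ a) (ha2 : a ≤ 24 * a') (hb : 0 ≤ b)
    (hb2 : b ≤ 4) (hc : b + 4 * (1 / 180) ≤ 2 * c)
    (ht : 2 * (Dat.nodeBound K : ℝ) - 4 * a' / 31680 ≤ K * t)
    (hW : ∀ (st : Fin L → St C L B) (V0 : ℕ) x nl s t', V0 ≤ B + 1 →
      Valid linv T col cb ns a0 vd (Real.exp a) (Real.exp b) (Real.exp c) (Real.exp t)
        st V0 x nl s t' → ¬ ∀ p, (st p).act = true → E (s p) (x p) (t' p)) :
    NoDiagram E := by
  intro D _ _ σ τ src lt hD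
  have h0 : Dat.Ok ⟨E, σ, τ, src, lt, ∅, 0, 0, 4 * a', fun _ => 0, fun _ => 0⟩ :=
    ⟨hD, hs, hd, hg, by simp, by simp, by simp, by simp, by simp⟩
  have cyc : ∀ d j, 0 < j → j < 4 * a' → (σ ^ j) d ≠ d := by
    intro d j j1 j2 k
    have := h0.cyc d (k := j) j2 (congrArg src k)
    omega
  obtain ⟨T0, t1, t2⟩ := exists_sep_set σ a' ha'
  obtain ⟨St, s1, s2⟩ := exists_sep_set σ (96000 * a') (by omega)
  obtain ⟨f, f1, f2, f3, f4, f5⟩ := exists_cut hD.planar St
  have cb1 := corner_bound hD.planar cyc (fun d k => linv_ne _ ((hD.ltτ d).symm.trans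
    (congrArg lt k))) (fun d k => hD.nb (τ d) (by rw [k, hD.ltτ, linv_linv]))
  set Cn := Finset.univ.filter fun d => σ (τ (σ (τ d))) ≠ d with hCn
  have ha'' : (0 : ℝ) < a' := Nat.cast_pos.2 ha'
  have ksum : ∀ Y : Finset D, ∑ d ∈ Y, ((if d ∈ T0 ∪ St ∪ Cn then (a' : ℝ) / 22000 else 0) +
      (if d ∈ St then 12 * (a' : ℝ) else 0)) =
      (Y ∩ (T0 ∪ St ∪ Cn)).card * ((a' : ℝ) / 22000) + (Y ∩ St).card * (12 * a') := by
    intro Y
    rw [Finset.sum_add_distrib, Finset.sum_ite_mem, Finset.sum_ite_mem, Finset.sum_const,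
      Finset.sum_const, nsmul_eq_mul, nsmul_eq_mul]
  obtain ⟨Y, y1, y2, y3, y4⟩ := exists_cluster f1 hD.invol (2 * (96000 * a')) 8000
    (24576000000000 * a') (cut_size s2 f2 f4 f5) (by norm_num) (by omega)
    (fun d => (if d ∈ T0 ∪ St ∪ Cn then (a' : ℝ) / 22000 else 0) +
      (if d ∈ St then 12 * (a' : ℝ) else 0))
    (fun d => by split_ifs <;> positivity) (1 / 4000) (1 / 4000) (by norm_num) (by
      rw [ksum, Finset.univ_inter, Finset.univ_inter]
      have k0 : ((T0 ∪ St ∪ Cn).card : ℝ) ≤ T0.card + St.card + Cn.card := by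
        exact_mod_cast (Finset.card_union_le _ _).trans
          (Nat.add_le_add_right (Finset.card_union_le _ _) _)
      have k1 := (Nat.cast_le (α := ℝ)).2 t1
      have k2 := (Nat.cast_le (α := ℝ)).2 s1
      have k3 := (Nat.cast_le (α := ℝ)).2 cb1
      have k4 := mul_le_mul_of_nonneg_right k0 ha''.le
      have k5 : (0 : ℝ) ≤ Fintype.card D := Nat.cast_nonneg _
      push_cast at k1 k2 k3
      nlinarith) (by
      push_cast
      field_simp
      norm_num) (by norm_num)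
  rw [ksum] at y4
  have yinv : ∀ d ∈ Y, f⁻¹ d ∈ Y := fun d hd => sc_inv (f := f) (p := fun x => x ∈ Y) y2
    ((sc f).symm' (by simpa using sc_apply f (f⁻¹ d))) hd
  obtain ⟨blk, idx, k1, k2, k3, k4⟩ := exists_blocks σ (T0 ∪ St) Y (l := 2 * a') (fun d => by
    obtain ⟨s, h1, h2⟩ := t2 d fun j j1 j2 => cyc d j j1 (by omega)
    exact ⟨s, Finset.mem_union_left _ h1, h2⟩) (by
    intro d hd hn
    have e : σ (f⁻¹ d) = d := by
      by_cases c : σ (f⁻¹ d) ∈ St
      · exact absurd (Finset.mem_union_right _ (by simpa using f3 _ c)) hn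
      · simpa using (f2 _ c).symm
    have : σ⁻¹ d = f⁻¹ d := by
      conv_lhs => rw [← e]
      simp
    rw [this]
    exact yinv d hd)
  have y3' := (Nat.cast_le (α := ℝ)).2 y3
  push_cast at y3'
  have hU : (0 : ℝ) ≤ (Y.filter fun x => τ x ∉ Y).card := Nat.cast_nonneg _
  have hZ : (0 : ℝ) ≤ (Y ∩ St).card * (12 * a') := by positivity
  have hKZ : (Y ∩ (T0 ∪ St ∪ Cn)).card ≤ K := by
    refine le_trans ((Nat.cast_le (α := ℝ)).1 (le_of_mul_le_mul_right ?_ ha'')) hK
    push_cast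
    nlinarith
  have sub1 : (Y ∩ (T0 ∪ St)).card ≤ (Y ∩ (T0 ∪ St ∪ Cn)).card :=
    Finset.card_le_card (Finset.inter_subset_inter_left Finset.subset_union_left)
  have sub2 : (Y ∩ St).card ≤ (Y ∩ (T0 ∪ St)).card :=
    Finset.card_le_card (Finset.inter_subset_inter_left Finset.subset_union_right)
  have hX : (Y.filter fun d => σ d ∉ Y).card ≤ (Y ∩ St).card := by
    refine Finset.card_le_card_of_injOn f (fun d hd => ?_) f.injective.injOn
    obtain ⟨a1, a2⟩ := Finset.mem_filter.1 (Finset.mem_coe.1 hd)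
    refine Finset.mem_coe.2 (Finset.mem_inter.2 ⟨y2 d a1, f3 d ?_⟩)
    by_contra c
    exact a2 (f2 d c ▸ y2 d a1)
  let Q : Dat S V D := ⟨E, σ, τ, src, lt, Y, K, 2 * a', 4 * a', blk, idx⟩
  have hQ : Q.Ok := ⟨hD, hs, hd, hg, by simp only [Q]; omega,
    fun d hd => (k1 d hd).trans_le (sub1.trans hKZ), k2, k3, k4⟩
  have hB0 : Q.badH.card ≤ Dat.nodeBound K := by
    refine hQ.card_badH (hX.trans (sub2.trans (sub1.trans hKZ)))
      (le_trans (Finset.card_le_card ?_) hKZ)
    intro d hd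
    obtain ⟨a1, a2⟩ := Finset.mem_filter.1 hd
    exact Finset.mem_inter.2 ⟨a1, Finset.mem_union_right _
      (Finset.mem_filter.2 ⟨Finset.mem_univ _, a2⟩)⟩
  have hpos : 1 ≤ (Y ∩ (T0 ∪ St ∪ Cn)).card := by
    obtain ⟨d, hd⟩ := y1
    have := k1 d hd
    omega
  obtain ⟨j, hj⟩ := hQ.exists_level (ns := ns) y1 hsym hcons (t := t) ha hb (by norm_num) hc (by
    have e1 := (Nat.cast_le (α := ℝ)).2 hX
    have e2 := (Nat.cast_le (α := ℝ)).2 hB0
    have e3 := (Nat.cast_le (α := ℝ)).2 hpos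
    have e4 : (0 : ℝ) ≤ Q.badH.card := Nat.cast_nonneg _
    have e5 : (0 : ℝ) ≤ (Y ∩ St).card := Nat.cast_nonneg _
    have e6 := mul_le_mul e1 ha2 ha e5
    have e7 := mul_le_mul_of_nonneg_left hb2 hU
    have e8 := mul_le_mul_of_nonneg_left hb2 e4
    have e9 := mul_le_mul_of_nonneg_right e3 ha''.le
    push_cast at e9
    change ((Y.filter fun d => σ d ∉ Y).card : ℝ) * a +
      (2 * (Y.filter fun d => τ d ∉ Y).card + Q.badH.card) * b / 4 + 1 / 180 * Q.badH.card ≤
      K * t + 1 / 180 * Y.card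
    nlinarith)
  obtain ⟨st, V0, x, nl, s, t', w1, w2, w3⟩ := hQ.witness (L := L) hL (B := B) (by omega) typ ns
    a0 vd j hj
  exact hW st V0 x nl s t' w1 w2 w3

end Vale.Agent.P201
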