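import Vale.Agent.P201.VK
import Vale.Agent.P194.Basic

/-
A cluster of darts of a reduced diagram cut into short blocks: half darts, multiplicities of
edges, representatives, and the shift along an unbranched vertex.
-/

namespace Vale.Agent.P201

open Equiv Classical Vale.Agent.P194

/-- A diagram with a cluster of darts divided into blocks. -/
structure Dat (S V D : Type) where
  E : V → S × Bool → V → Prop
  σ : Perm D
  τ : Perm D
  src : D → V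
  lt : D → S × Bool
  Y : Finset D
  K : ℕ
  l : ℕ
  g : ℕ
  blk : D → ℕ
  idx : D → ℕ

namespace Dat

variable {S V D : Type} (Q : Dat S V D)

/-- The standing hypotheses. -/
structure Ok : Prop where
  dg : Diagram Q.E Q.σ Q.τ Q.src Q.lt
  symm : Symm linv Q.E
  det : Det Q.E
  girth : Girth linv Q.E Q.g
  hg : 2 * Q.l ≤ Q.g
  hblk : ∀ d ∈ Q.Y, Q.blk d < Q.K
  hidx : ∀ d ∈ Q.Y, Q.idx d < Q.l
  hin : ∀ d ∈ Q.Y, Q.idx d ≠ 0 →
    Q.σ⁻¹ d ∈ Q.Y ∧ Q.blk (Q.σ⁻¹ d) = Q.blk d ∧ Q.idx (Q.σ⁻¹ d) + 1 = Q.idx d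
  hst : ∀ d ∈ Q.Y, ∀ d' ∈ Q.Y, Q.idx d = 0 → Q.idx d' = 0 → Q.blk d = Q.blk d' → d = d'

/-- The vertex of a half dart. -/
def vt : D × Bool → V
  | (d, false) => Q.src d
  | (d, true) => Q.src (Q.σ d)

/-- The letter of a half dart. -/
def la : D × Bool → S × Bool
  | (d, false) => Q.lt d
  | (d, true) => linv (Q.lt d)

/-- The neighbouring half dart in the same face. -/
def nb : D × Bool → D × Bool
  | (d, false) => (Q.σ⁻¹ d, true)
  | (d, true) => (Q.σ d, false)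

/-- The mirror half dart in the opposite face. -/
def mir (u : D × Bool) : D × Bool := (Q.τ u.1, !u.2)

/-- The half edge of a half dart. -/
def he (u : D × Bool) : V × (S × Bool) := (Q.vt u, Q.la u)

/-- The edge of a dart. -/
def ed (d : D) : Sym2 (V × (S × Bool)) := s(Q.he (d, false), Q.he (d, true))

/-- The darts of the cluster over the same edge. -/
noncomputable def fib (d : D) : Finset D := Q.Y.filter fun d' => Q.ed d' = Q.ed d

/-- The multiplicity. -/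
noncomputable def mu (d : D) : ℕ := (Q.fib d).card

/-- Representatives: first occurrences of an edge. -/
def Rep (d : D) : Prop := d ∈ Q.Y ∧ ∀ d' ∈ Q.Y, Q.ed d' = Q.ed d → Q.blk d ≤ Q.blk d'

/-- The representative of a dart. -/
noncomputable def rp (d : D) : D := if h : ∃ d', Q.Rep d' ∧ Q.ed d' = Q.ed d then h.choose else d

/-- The position of a dart. -/
def pos (d : D) : ℕ := Q.blk d * Q.l + Q.idx d

/-- The rank of the edge of a dart. -/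
noncomputable def rk (d : D) : ℕ := (Q.K - Q.mu d) * (Q.K * Q.l) + Q.pos (Q.rp d)

/-- The turn at a half dart lies inside a block. -/
def Inn (u : D × Bool) : Prop := (Q.nb u).1 ∈ Q.Y ∧ Q.blk (Q.nb u).1 = Q.blk u.1 ∧
  ((u.2 = true ∧ Q.idx (Q.nb u).1 = Q.idx u.1 + 1) ∨
    (u.2 = false ∧ Q.idx (Q.nb u).1 + 1 = Q.idx u.1))

/-- Unbranched vertices. -/
def G1 (v : V) : Prop := ∀ u : D × Bool, u.1 ∈ Q.Y → Q.vt u = v → Q.Inn u ∧
  ∀ u' : D × Bool, u'.1 ∈ Q.Y → Q.vt u' = v → Q.he u' = Q.he u ∨ Q.he u' = Q.he (Q.nb u)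

/-- Unbranched vertices whose mirror images are unbranched as well. -/
def G2 (v : V) : Prop := Q.G1 v ∧ ∀ u : D × Bool, u.1 ∈ Q.Y → Q.vt u = v →
  Q.mir (Q.nb u) = Q.nb (Q.mir u) ∧ ((Q.mir u).1 ∈ Q.Y → Q.G1 (Q.vt (Q.mir u)))

/-- The letter of the edge of `d` is determined through the dart `d'`. -/
def DetAt (d d' : D) : Prop :=
  d' ∈ Q.Y ∧ Q.ed d' = Q.ed d ∧ Q.τ d' ∈ Q.Y ∧ Q.rk (Q.τ d') < Q.rk d

/-- The first dart determining the letter. -/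
def FstAt (d d' : D) : Prop := Q.DetAt d d' ∧ ∀ d'', Q.DetAt d d'' → Q.blk d' ≤ Q.blk d''

/-- Free edges. -/
def Free (d : D) : Prop := ∀ d', ¬ Q.DetAt d d'

/-- The word read from a dart. -/
def wd (d : D) : ℕ → List (S × Bool)
  | 0 => []
  | k + 1 => Q.lt d :: wd (Q.σ d) k

theorem nb_nb (u : D × Bool) : Q.nb (Q.nb u) = u := by
  rcases u with ⟨d, _ | _⟩ <;> simp [nb]

theorem vt_nb (u : D × Bool) : Q.vt (Q.nb u) = Q.vt u := by
  rcases u with ⟨d, _ | _⟩ <;> simp [nb, vt]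

theorem length_wd (k : ℕ) : ∀ d, (Q.wd d k).length = k := by
  induction k with
  | zero => exact fun _ => rfl
  | succ k ih => intro d; simp [wd, ih]

theorem wd_succ' (k : ℕ) : ∀ d, Q.wd d (k + 1) = Q.wd d k ++ [Q.lt ((Q.σ ^ k) d)] := by
  induction k with
  | zero => intro d; simp [wd]
  | succ k ih =>
    intro d
    rw [wd, ih, wd, pow_succ]
    simp

theorem ed_he {d d' : D} (h : Q.ed d' = Q.ed d) (b : Bool) :
    ∃ b', Q.he (d', b') = Q.he (d, b) := by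
  rcases Sym2.eq_iff.1 h with ⟨h1, h2⟩ | ⟨h1, h2⟩
  · cases b
    · exact ⟨_, h1⟩
    · exact ⟨_, h2⟩
  · cases b
    · exact ⟨_, h2⟩
    · exact ⟨_, h1⟩

theorem mu_congr {d d' : D} (h : Q.ed d = Q.ed d') : Q.mu d = Q.mu d' := by
  simp only [mu, fib, h]

variable {Q}

theorem Ok.la_nb (h : Q.Ok) (u : D × Bool) : Q.la (Q.nb u) ≠ Q.la u := by
  rcases u with ⟨d, _ | _⟩
  · have := h.dg.nb (Q.σ⁻¹ d)
    simp only [nb, la]
    intro k
    apply this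
    rw [k]
    simp
  · exact h.dg.nb d

theorem Ok.mir_mir (h : Q.Ok) (u : D × Bool) : Q.mir (Q.mir u) = u := by
  simp [mir, h.dg.invol]

theorem Ok.la_mir (h : Q.Ok) (u : D × Bool) : Q.la (Q.mir u) = Q.la u := by
  rcases u with ⟨d, _ | _⟩ <;> simp [mir, la, h.dg.ltτ, linv_linv]

theorem Ok.edge (h : Q.Ok) (d : D) (b : Bool) :
    Q.E (Q.vt (d, b)) (Q.la (d, b)) (Q.vt (d, !b)) := by
  cases b
  · exact h.dg.edge d
  · exact h.symm _ _ _ (h.dg.edge d)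

theorem la_opp (d : D) (b : Bool) : Q.la (d, !b) = linv (Q.la (d, b)) := by
  cases b <;> simp [la, linv_linv]

theorem Ok.he_opp (h : Q.Ok) {d d' : D} {b b' : Bool} (k : Q.he (d, b) = Q.he (d', b')) :
    Q.he (d, !b) = Q.he (d', !b') := by
  simp only [he, Prod.mk.injEq] at k ⊢
  have a1 := h.edge d b
  rw [k.1, k.2] at a1
  exact ⟨h.det _ _ _ _ a1 (h.edge d' b'), by rw [la_opp, la_opp, k.2]⟩

theorem Ok.ed_of_he (h : Q.Ok) {u u' : D × Bool} (k : Q.he u = Q.he u') :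
    Q.ed u.1 = Q.ed u'.1 := by
  obtain ⟨d, b⟩ := u
  obtain ⟨d', b'⟩ := u'
  have k' := h.he_opp k
  cases b <;> cases b' <;> simp only [Bool.not_false, Bool.not_true] at k' <;>
    simp only [ed, k, k', Sym2.eq_swap]

theorem Ok.ed_τ (h : Q.Ok) (d : D) : Q.ed (Q.τ d) ≠ Q.ed d := by
  intro k
  obtain ⟨b, hb⟩ := Q.ed_he k.symm false
  simp only [he, Prod.mk.injEq] at hb
  cases b
  · exact linv_ne _ ((h.dg.ltτ d).symm.trans hb.2.symm)
  · exact h.dg.red d hb.1.symm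

theorem Ok.path_wd (h : Q.Ok) (k : ℕ) :
    ∀ d, Path Q.E (Q.src d) (Q.wd d k) (Q.src ((Q.σ ^ k) d)) := by
  induction k with
  | zero => exact fun d => Path.nil _
  | succ k ih =>
    intro d
    rw [pow_succ, Perm.mul_apply]
    exact Path.cons (h.dg.edge d) (ih _)

theorem Ok.red_wd (h : Q.Ok) (k : ℕ) : ∀ d, Red linv (Q.wd d k) := by
  induction k with
  | zero => exact fun d => red_nil
  | succ k ih =>
    intro d
    cases k with
    | zero => exact red_single _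
    | succ k => exact red_cons_cons.2 ⟨h.dg.nb d, ih _⟩

theorem Ok.cyc (h : Q.Ok) (d : D) {k : ℕ} (hk : k < Q.g) (e : Q.src ((Q.σ ^ k) d) = Q.src d) :
    k = 0 := by
  have := h.path_wd k d
  rw [e] at this
  have := h.girth _ _ (h.red_wd k d) this (by rwa [length_wd])
  rw [← Q.length_wd k d, this]
  rfl

theorem Ok.base (h : Q.Ok) (n : ℕ) : ∀ d ∈ Q.Y, Q.idx d = n →
    ∃ b ∈ Q.Y, Q.idx b = 0 ∧ Q.blk b = Q.blk d ∧ d = (Q.σ ^ n) b := by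
  induction n with
  | zero => exact fun d hd e => ⟨d, hd, e, rfl, rfl⟩
  | succ n ih =>
    intro d hd e
    obtain ⟨a1, a2, a3⟩ := h.hin d hd (by omega)
    obtain ⟨b, b1, b2, b3, b4⟩ := ih _ a1 (by omega)
    refine ⟨b, b1, b2, b3.trans a2, ?_⟩
    rw [pow_succ', Perm.mul_apply, ← b4]
    simp

theorem Ok.pow (h : Q.Ok) {d d' : D} (hd : d ∈ Q.Y) (hd' : d' ∈ Q.Y) (hb : Q.blk d = Q.blk d')
    {k : ℕ} (hk : Q.idx d' = Q.idx d + k) : d' = (Q.σ ^ k) d := by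
  obtain ⟨b, b1, b2, b3, b4⟩ := h.base _ d hd rfl
  obtain ⟨c, c1, c2, c3, c4⟩ := h.base _ d' hd' rfl
  obtain rfl := h.hst b b1 c c1 b2 c2 (by omega)
  rw [c4, hk, add_comm, pow_add, Perm.mul_apply, ← b4]

theorem Ok.src_inj (h : Q.Ok) {d d' : D} (hd : d ∈ Q.Y) (hd' : d' ∈ Q.Y)
    (hb : Q.blk d = Q.blk d') (e : Q.src d = Q.src d') : d = d' := by
  have a1 := h.hidx d hd
  have a2 := h.hidx d' hd'
  have a3 := h.hg
  rcases le_total (Q.idx d) (Q.idx d') with k | k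
  · obtain ⟨k, hk⟩ := Nat.exists_eq_add_of_le k
    have := h.pow hd hd' hb hk
    rw [this] at e
    rw [this, h.cyc d (by omega) e.symm]
    rfl
  · obtain ⟨k, hk⟩ := Nat.exists_eq_add_of_le k
    have := h.pow hd' hd hb.symm hk
    rw [this] at e
    rw [this, h.cyc d' (by omega) e]
    rfl

theorem Ok.tgt_inj (h : Q.Ok) {d d' : D} (hd : d ∈ Q.Y) (hd' : d' ∈ Q.Y)
    (hb : Q.blk d = Q.blk d') (e : Q.src (Q.σ d) = Q.src (Q.σ d')) : d = d' := by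
  have a1 := h.hidx d hd
  have a2 := h.hidx d' hd'
  have a3 := h.hg
  have comm : ∀ k x, Q.σ ((Q.σ ^ k) x) = (Q.σ ^ k) (Q.σ x) := fun k x => by
    rw [← Perm.mul_apply, ← pow_succ', pow_succ, Perm.mul_apply]
  rcases le_total (Q.idx d) (Q.idx d') with k | k
  · obtain ⟨k, hk⟩ := Nat.exists_eq_add_of_le k
    have := h.pow hd hd' hb hk
    rw [this, comm] at e
    rw [this, h.cyc _ (by omega) e.symm]
    rfl
  · obtain ⟨k, hk⟩ := Nat.exists_eq_add_of_le k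
    have := h.pow hd' hd hb.symm hk
    rw [this, comm] at e
    rw [this, h.cyc _ (by omega) e]
    rfl

theorem Ok.no_loop (h : Q.Ok) {d : D} (hd : d ∈ Q.Y) (x : D) : Q.src (Q.σ x) ≠ Q.src x := by
  have a1 := h.hidx d hd
  have a3 := h.hg
  intro e
  have := h.cyc x (k := 1) (by omega) (by simpa using e)
  omega

theorem Ok.ed_inj (h : Q.Ok) {d d' : D} (hd : d ∈ Q.Y) (hd' : d' ∈ Q.Y)
    (hb : Q.blk d = Q.blk d') (e : Q.ed d = Q.ed d') : d = d' := by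
  obtain ⟨b, k⟩ := Q.ed_he e false
  simp only [he, Prod.mk.injEq] at k
  cases b
  · exact h.src_inj hd hd' hb k.1
  · exfalso
    have a1 := h.hidx d hd
    have a2 := h.hidx d' hd'
    have a3 := h.hg
    simp only [vt, la] at k
    rcases lt_or_ge (Q.idx d) (Q.idx d') with c | c
    · obtain ⟨j, hj⟩ := Nat.exists_eq_add_of_lt c
      have := h.pow hd hd' hb (k := j + 1) (by omega)
      rw [pow_succ, Perm.mul_apply] at this
      have e1 := h.cyc (Q.σ d) (k := j) (by omega) (by rw [← this, k.1])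
      rw [e1] at this
      exact h.dg.nb d (by rw [k.2, this]; rfl)
    · obtain ⟨j, hj⟩ := Nat.exists_eq_add_of_le c
      have := h.pow hd' hd hb.symm hj
      have e1 := h.cyc d' (k := j + 1) (by omega) (by
        rw [pow_succ', Perm.mul_apply, ← this, k.1])
      omega

theorem Ok.pos_lt (h : Q.Ok) {d : D} (hd : d ∈ Q.Y) : Q.pos d < Q.K * Q.l := by
  have a1 := h.hidx d hd
  have a2 : (Q.blk d + 1) * Q.l ≤ Q.K * Q.l := Nat.mul_le_mul_right _ (h.hblk d hd)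
  rw [add_mul] at a2
  simp only [pos]
  omega

theorem lex_iff {L x y a b : ℕ} (ha : a < L) (hb : b < L) :
    x * L + b < y * L + a ↔ x < y ∨ (x = y ∧ b < a) := by
  rcases lt_trichotomy x y with k | k | k
  · have := Nat.mul_le_mul_right L (show x + 1 ≤ y from k)
    rw [add_mul] at this
    exact ⟨fun _ => Or.inl k, fun _ => by omega⟩
  · subst k
    omega
  · have := Nat.mul_le_mul_right L (show y + 1 ≤ x from k)
    rw [add_mul] at this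
    omega

theorem Ok.pos_inj (h : Q.Ok) {d d' : D} (hd : d ∈ Q.Y) (hd' : d' ∈ Q.Y)
    (e : Q.pos d = Q.pos d') : d = d' := by
  have a1 := h.hidx d hd
  have a2 := h.hidx d' hd'
  have b1 := lex_iff (x := Q.blk d) (y := Q.blk d') a2 a1
  have b2 := lex_iff (x := Q.blk d') (y := Q.blk d) a1 a2
  simp only [pos] at e
  have := h.pow hd hd' (by omega) (k := 0) (by omega)
  exact this.symm

theorem Ok.mu_eq (h : Q.Ok) (d : D) : Q.mu d = ((Q.fib d).image Q.blk).card := by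
  refine (Finset.card_image_of_injOn fun x hx y hy e => ?_).symm
  have a1 := Finset.mem_filter.1 (Finset.mem_coe.1 hx)
  have a2 := Finset.mem_filter.1 (Finset.mem_coe.1 hy)
  exact h.ed_inj a1.1 a2.1 e (a1.2.trans a2.2.symm)

theorem Ok.mu_le (h : Q.Ok) (d : D) : Q.mu d ≤ Q.K := by
  rw [h.mu_eq]
  refine le_trans (Finset.card_le_card ?_) (Finset.card_range Q.K).le
  intro c hc
  obtain ⟨x, hx, rfl⟩ := Finset.mem_image.1 hc
  exact Finset.mem_range.2 (h.hblk x (Finset.mem_filter.1 hx).1)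

theorem Ok.rep_uniq (h : Q.Ok) {d d' : D} (hd : Q.Rep d) (hd' : Q.Rep d') (e : Q.ed d = Q.ed d') :
    d = d' :=
  h.ed_inj hd.1 hd'.1 (le_antisymm (hd.2 _ hd'.1 e.symm) (hd'.2 _ hd.1 e)) e

theorem rp_spec {d : D} (hd : d ∈ Q.Y) : Q.Rep (Q.rp d) ∧ Q.ed (Q.rp d) = Q.ed d := by
  have : ∃ d', Q.Rep d' ∧ Q.ed d' = Q.ed d := by
    obtain ⟨x, hx, hm⟩ := (Q.fib d).exists_min_image Q.blk ⟨d, Finset.mem_filter.2 ⟨hd, rfl⟩⟩
    have a1 := Finset.mem_filter.1 hx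
    exact ⟨x, ⟨a1.1, fun y hy e => hm y (Finset.mem_filter.2 ⟨hy, e.trans a1.2⟩)⟩, a1.2⟩
  rw [rp, dif_pos this]
  exact this.choose_spec

theorem Ok.rp_eq (h : Q.Ok) {d d' : D} (hd : d ∈ Q.Y) (hd' : Q.Rep d') (e : Q.ed d' = Q.ed d) :
    Q.rp d = d' :=
  h.rep_uniq (rp_spec hd).1 hd' ((rp_spec hd).2.trans e.symm)

theorem Ok.rk_congr (h : Q.Ok) {d d' : D} (hd : d ∈ Q.Y) (hd' : d' ∈ Q.Y)
    (e : Q.ed d = Q.ed d') : Q.rk d = Q.rk d' := by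
  rw [rk, rk, Q.mu_congr e, h.rp_eq hd (rp_spec hd').1 ((rp_spec hd').2.trans e.symm)]

theorem Ok.rk_inj (h : Q.Ok) {d d' : D} (hd : d ∈ Q.Y) (hd' : d' ∈ Q.Y)
    (e : Q.rk d = Q.rk d') : Q.ed d = Q.ed d' := by
  have a1 := h.pos_lt (rp_spec hd).1.1
  have a2 := h.pos_lt (rp_spec hd').1.1
  have b1 := lex_iff (x := Q.K - Q.mu d) (y := Q.K - Q.mu d') a2 a1
  have b2 := lex_iff (x := Q.K - Q.mu d') (y := Q.K - Q.mu d) a1 a2
  simp only [rk] at e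
  have := h.pos_inj (rp_spec hd).1.1 (rp_spec hd').1.1 (by omega)
  rw [← (rp_spec hd).2, this, (rp_spec hd').2]

theorem Inn.pos {u : D × Bool} (h : Q.Inn u) :
    (u.2 = true ∧ Q.pos (Q.nb u).1 = Q.pos u.1 + 1) ∨
      (u.2 = false ∧ Q.pos (Q.nb u).1 + 1 = Q.pos u.1) := by
  obtain ⟨-, a, b⟩ := h
  simp only [Dat.pos, a]
  rcases b with b | b
  · exact Or.inl ⟨b.1, by omega⟩
  · exact Or.inr ⟨b.1, by omega⟩

theorem vt_of_he {u u' : D × Bool} (e : Q.he u = Q.he u') : Q.vt u = Q.vt u' :=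
  congrArg Prod.fst e

theorem la_of_he {u u' : D × Bool} (e : Q.he u = Q.he u') : Q.la u = Q.la u' :=
  congrArg Prod.snd e

theorem Ok.he_nb (h : Q.Ok) {u u' : D × Bool} (hu : u.1 ∈ Q.Y) (hu' : u'.1 ∈ Q.Y)
    (hG : Q.G1 (Q.vt u)) (e : Q.he u' = Q.he u) : Q.he (Q.nb u') = Q.he (Q.nb u) := by
  have a1 := (hG u' hu' (vt_of_he e)).1.1
  rcases (hG u hu rfl).2 _ a1 (by rw [vt_nb, vt_of_he e]) with k | k
  · exact absurd (la_of_he (k.trans e.symm)) (h.la_nb u')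
  · exact k

theorem Ok.blk_sub (h : Q.Ok) {u : D × Bool} (hu : u.1 ∈ Q.Y) (hG : Q.G1 (Q.vt u)) {d : D}
    (hd : d ∈ Q.Y) (e : Q.ed d = Q.ed u.1) :
    ∃ d' ∈ Q.Y, Q.ed d' = Q.ed (Q.nb u).1 ∧ Q.blk d' = Q.blk d := by
  obtain ⟨b, hb⟩ := Q.ed_he e u.2
  have a1 := (hG (d, b) hd (vt_of_he hb)).1
  exact ⟨_, a1.1, h.ed_of_he (h.he_nb hu hd hG hb), a1.2.1⟩

theorem Ok.mu_nb (h : Q.Ok) {u : D × Bool} (hu : u.1 ∈ Q.Y) (hG : Q.G1 (Q.vt u)) :
    Q.mu (Q.nb u).1 = Q.mu u.1 := by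
  have key : ∀ u : D × Bool, u.1 ∈ Q.Y → Q.G1 (Q.vt u) → Q.mu u.1 ≤ Q.mu (Q.nb u).1 := by
    intro u hu hG
    rw [h.mu_eq, h.mu_eq]
    refine Finset.card_le_card fun c hc => ?_
    obtain ⟨x, hx, rfl⟩ := Finset.mem_image.1 hc
    obtain ⟨y, y1, y2, y3⟩ := h.blk_sub hu hG (Finset.mem_filter.1 hx).1 (Finset.mem_filter.1 hx).2
    exact Finset.mem_image.2 ⟨y, Finset.mem_filter.2 ⟨y1, y2⟩, y3⟩
  have := key (Q.nb u) (hG u hu rfl).1.1 (by rwa [vt_nb])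
  rw [nb_nb] at this
  exact le_antisymm this (key u hu hG)

theorem Ok.rep_nb (h : Q.Ok) {u : D × Bool} (hu : Q.Rep u.1) (hG : Q.G1 (Q.vt u)) :
    Q.Rep (Q.nb u).1 := by
  have a1 := (hG u hu.1 rfl).1
  refine ⟨a1.1, fun d hd e => ?_⟩
  obtain ⟨y, y1, y2, y3⟩ := h.blk_sub (u := Q.nb u) a1.1 (by rwa [vt_nb]) hd e
  rw [nb_nb] at y2
  rw [a1.2.1, ← y3]
  exact hu.2 y y1 y2

theorem Ok.rp_nb (h : Q.Ok) {u : D × Bool} (hu : u.1 ∈ Q.Y) (hG : Q.G1 (Q.vt u)) :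
    ∃ b, Q.he (Q.rp u.1, b) = Q.he u ∧ Q.Inn (Q.rp u.1, b) ∧
      Q.rp (Q.nb u).1 = (Q.nb (Q.rp u.1, b)).1 := by
  obtain ⟨b, hb⟩ := Q.ed_he (rp_spec hu).2 u.2
  refine ⟨b, hb, (hG _ (rp_spec hu).1.1 (vt_of_he hb)).1, ?_⟩
  exact h.rp_eq (hG u hu rfl).1.1 (h.rep_nb (u := (Q.rp u.1, b)) (rp_spec hu).1
    (by rwa [vt_of_he hb])) (h.ed_of_he (h.he_nb hu (rp_spec hu).1.1 hG hb))

theorem Ok.detAt_nb (h : Q.Ok) {u u' : D × Bool} (hu : u.1 ∈ Q.Y) (hG : Q.G2 (Q.vt u))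
    (e : Q.he u' = Q.he u) (hD : Q.DetAt u.1 u'.1) : Q.DetAt (Q.nb u).1 (Q.nb u').1 := by
  obtain ⟨d1, -, d3, d4⟩ := hD
  obtain ⟨c1, c2⟩ := hG.2 u' d1 (vt_of_he e)
  have hz := c2 d3
  have i1 := (hG.1 u' d1 (vt_of_he e)).1
  have i2 := (hz (Q.mir u') d3 rfl).1
  have e1 : Q.τ (Q.nb u').1 = (Q.nb (Q.mir u')).1 := congrArg Prod.fst c1
  have e2 := h.ed_of_he (h.he_nb hu d1 hG.1 e)
  refine ⟨i1.1, e2, e1 ▸ i2.1, ?_⟩
  obtain ⟨b, b1, b2, b3⟩ := h.rp_nb hu hG.1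
  obtain ⟨c, k1, k2, k3⟩ := h.rp_nb (u := Q.mir u') d3 hz
  have p1 := h.pos_lt (rp_spec hu).1.1
  have p2 := h.pos_lt (rp_spec d3).1.1
  have p3 := h.pos_lt b2.1
  have p4 := h.pos_lt k2.1
  rw [rk, rk, lex_iff p1 p2] at d4
  rw [e1, rk, rk, h.mu_nb hu hG.1, h.mu_nb (u := Q.mir u') d3 hz, b3, k3, lex_iff p3 p4]
  refine d4.imp id fun k => ⟨k.1, ?_⟩
  have q1 := b2.pos
  have q2 := k2.pos
  have q3 : Q.pos (Q.nb (Q.rp (Q.mir u').1, c)).1 ≠ Q.pos (Q.nb (Q.rp u.1, b)).1 := by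
    intro e3
    have := h.pos_inj k2.1 b2.1 e3
    rw [← b3, ← k3, ← e1] at this
    refine h.ed_τ (Q.nb u').1 ?_
    rw [← (rp_spec (e1 ▸ i2.1)).2, this, (rp_spec (hG.1 u hu rfl).1.1).2, e2]
  by_contra hn
  have k2' := k.2
  change Q.pos (Q.rp (Q.mir u').1) < _ at k2'
  rcases q1 with ⟨q1, q1'⟩ | ⟨q1, q1'⟩ <;> rcases q2 with ⟨q2, q2'⟩ | ⟨q2, q2'⟩ <;>
    dsimp only at q1 q2 q1' q2'
  · omega
  · omega
  · subst q1 q2
    have := h.pos_inj b2.1 (rp_spec d3).1.1 (by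
      change _ = Q.pos (Q.rp (Q.mir u').1)
      omega)
    have e4 : Q.nb (Q.rp u.1, false) = (Q.rp (Q.mir u').1, true) := Prod.ext this rfl
    refine h.la_nb (Q.rp u.1, false) ?_
    rw [e4, la_of_he k1, h.la_mir, la_of_he e, la_of_he b1]
  · omega

theorem Ok.free_nb (h : Q.Ok) {u : D × Bool} (hu : u.1 ∈ Q.Y) (hG : Q.G2 (Q.vt u))
    (hf : Q.Free (Q.nb u).1) : Q.Free u.1 := by
  intro d hd
  obtain ⟨b, hb⟩ := Q.ed_he hd.2.1 u.2
  exact hf _ (h.detAt_nb hu hG hb hd)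

theorem Ok.fstAt_nb (h : Q.Ok) {u u' : D × Bool} (hu : u.1 ∈ Q.Y) (hG : Q.G2 (Q.vt u))
    (e : Q.he u' = Q.he u) (hD : Q.FstAt u.1 u'.1) : Q.FstAt (Q.nb u).1 (Q.nb u').1 := by
  refine ⟨h.detAt_nb hu hG e hD.1, fun d hd => ?_⟩
  obtain ⟨b, hb⟩ := Q.ed_he hd.2.1 (Q.nb u).2
  have hG' : Q.G2 (Q.vt (Q.nb u)) := by rwa [vt_nb]
  have := h.detAt_nb (u := Q.nb u) (u' := (d, b)) (hG.1 u hu rfl).1.1 hG' hb hd
  rw [nb_nb] at this
  have a1 := hD.2 _ this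
  rw [(hG'.1 (d, b) hd.1 (vt_of_he hb)).1.2.1] at a1
  rw [(hG.1 u' hD.1.1 (vt_of_he e)).1.2.1]
  exact a1

theorem Ok.fstAt_uniq (h : Q.Ok) {d x y : D} (hx : Q.FstAt d x) (hy : Q.FstAt d y) : x = y :=
  h.ed_inj hx.1.1 hy.1.1 (le_antisymm (hx.2 _ hy.1) (hy.2 _ hx.1))
    (hx.1.2.1.trans hy.1.2.1.symm)

theorem exists_fstAt {d : D} (hd : ¬ Q.Free d) : ∃ x, Q.FstAt d x := by
  simp only [Free, not_forall, not_not] at hd
  obtain ⟨x, hx⟩ := hd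
  obtain ⟨y, hy, hm⟩ := (Q.Y.filter fun x => Q.DetAt d x).exists_min_image Q.blk
    ⟨x, Finset.mem_filter.2 ⟨hx.1, hx⟩⟩
  exact ⟨y, (Finset.mem_filter.1 hy).2, fun z hz => hm z (Finset.mem_filter.2 ⟨hz.1, hz⟩)⟩

theorem Ok.free_congr (h : Q.Ok) {d d' : D} (hd : d ∈ Q.Y) (hd' : d' ∈ Q.Y)
    (e : Q.ed d = Q.ed d') (hf : Q.Free d) : Q.Free d' := fun x hx =>
  hf x ⟨hx.1, hx.2.1.trans e.symm, hx.2.2.1, by rw [h.rk_congr hd hd' e]; exact hx.2.2.2⟩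

end Dat

end Vale.Agent.P201
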