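import Vale.Agent.P201.Algebra
import Vale.Agent.P201.Global
import Vale.Agent.P201.Data

/-
Choice of the parameters and the final assembly.
-/

namespace Vale.Agent.P201

open Classical Vale.Agent.P194 Filter

theorem ev_small (C0 γ : ℝ) (k : ℕ) (hγ : 0 < γ) :
    ∀ᶠ x : ℕ in atTop, C0 * (x : ℝ) ^ k * Real.exp (-(γ * x)) < 1 := by
  have h1 : Tendsto (fun x : ℕ => γ * (x : ℝ)) atTop atTop :=
    tendsto_natCast_atTop_atTop.const_mul_atTop hγ
  have h2 := ((Real.tendsto_pow_mul_exp_neg_atTop_nhds_zero k).comp h1).const_mul (C0 / γ ^ k)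
  rw [mul_zero] at h2
  filter_upwards [h2.eventually (gt_mem_nhds one_pos)] with x hx
  refine lt_of_eq_of_lt ?_ hx
  simp only [Function.comp, mul_pow]
  field_simp

theorem exists_param (K NB B : ℕ) (hK : 1 ≤ K) : ∃ x : ℕ, 1 ≤ x ∧
    2 * (K : ℝ) * x + 3 ≤ Real.exp x ∧
    (((K * (2 * x) * (8 * 4 * (2 * (K * (2 * x)) + 1) * (B + 1) ^ 2) + 1) ^ B * (B + 2) : ℕ) : ℝ) *
      (16 ^ (B + 1) * 3 * Real.exp ((2 * (NB : ℝ) - 4 * x / 31680) / K) * 10 ^ B) < 1 := by
  have hK' : (0 : ℝ) < K := Nat.cast_pos.2 hK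
  obtain ⟨x, h1, h2, h3⟩ := ((eventually_ge_atTop 1).and
    ((ev_small (2 * K + 3) 1 1 one_pos).and (ev_small
      ((((K * 2 * (8 * 4 * (4 * K + 1) * (B + 1) ^ 2) + 1) ^ B * (B + 2) : ℕ) : ℝ) *
        (16 ^ (B + 1) * 3 * Real.exp (2 * (NB : ℝ) / K) * 10 ^ B)) (4 / 31680 / K) (2 * B)
      (by positivity)))).exists
  have hx : (1 : ℝ) ≤ x := by exact_mod_cast h1
  refine ⟨x, h1, ?_, lt_of_le_of_lt ?_ h3⟩
  · rw [one_mul, Real.exp_neg, pow_one, ← div_eq_mul_inv, div_lt_one (Real.exp_pos _)] at h2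
    nlinarith
  · have e1 : Real.exp ((2 * (NB : ℝ) - 4 * x / 31680) / K) =
        Real.exp (2 * (NB : ℝ) / K) * Real.exp (-(4 / 31680 / K * x)) := by
      rw [← Real.exp_add]
      congr 1
      field_simp
      ring
    have e2 : K * (2 * x) * (8 * 4 * (2 * (K * (2 * x)) + 1) * (B + 1) ^ 2) + 1 ≤
        (K * 2 * (8 * 4 * (4 * K + 1) * (B + 1) ^ 2) + 1) * x ^ 2 := by
      have a1 : 2 * (K * (2 * x)) + 1 ≤ (4 * K + 1) * x := by nlinarith
      have a2 : 1 ≤ x ^ 2 := Nat.one_le_pow _ _ h1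
      calc _ ≤ K * (2 * x) * (8 * 4 * ((4 * K + 1) * x) * (B + 1) ^ 2) + x ^ 2 := by gcongr
        _ = _ := by ring
    have e3 : (K * (2 * x) * (8 * 4 * (2 * (K * (2 * x)) + 1) * (B + 1) ^ 2) + 1) ^ B * (B + 2) ≤
        (K * 2 * (8 * 4 * (4 * K + 1) * (B + 1) ^ 2) + 1) ^ B * (B + 2) * x ^ (2 * B) := by
      calc _ ≤ ((K * 2 * (8 * 4 * (4 * K + 1) * (B + 1) ^ 2) + 1) * x ^ 2) ^ B * (B + 2) := by
            gcongr
        _ = _ := by rw [mul_pow, ← pow_mul]; ring
    have e4 := (Nat.cast_le (α := ℝ)).2 e3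
    rw [Nat.cast_mul _ (x ^ (2 * B)), Nat.cast_pow x] at e4
    rw [e1]
    refine (mul_le_mul_of_nonneg_right e4 (by positivity)).trans (le_of_eq ?_)
    ring

theorem log_bound {K x L w mn : ℕ} (hx : 1 ≤ x) (hx1 : 2 * (K : ℝ) * x + 3 ≤ Real.exp x)
    (hL : L = K * (2 * x)) (hw : w = (4 + 1) ^ (4 * x))
    (hmn : mn ≤ 6 * ((2 * w + 2 * L + 3) * (L + 1))) (hmn1 : (1 : ℝ) ≤ mn) :
    Real.log mn ≤ 24 * x := by
  rw [Real.log_le_iff_le_exp (by linarith)]
  have hx' : (1 : ℝ) ≤ x := by exact_mod_cast hx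
  have hK' : (0 : ℝ) ≤ K := Nat.cast_nonneg _
  obtain ⟨y, hy⟩ : ∃ y, y = Real.exp x := ⟨_, rfl⟩
  have y3 : 3 ≤ y := by rw [hy]; nlinarith
  have y1 : (L : ℝ) + 3 ≤ y := by rw [hL, hy]; push_cast; linarith
  have y2 : (w : ℝ) ≤ y ^ 7 := by
    rw [hw, hy, ← Real.exp_nat_mul, pow_mul, mul_comm, Real.exp_nat_mul]
    push_cast
    gcongr
    calc (625 : ℝ) ≤ 2.7 ^ 7 := by norm_num
      _ ≤ Real.exp 1 ^ 7 := by
        gcongr
        linarith [Real.exp_one_gt_d9]
      _ = Real.exp 7 := by rw [← Real.exp_nat_mul]; norm_num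
  have y4 : Real.exp (24 * x) = y ^ 24 := by
    rw [hy, ← Real.exp_nat_mul]
    norm_num
  have y5 : y ≤ y ^ 7 := le_self_pow₀ (by linarith) (by norm_num)
  have y6 : (24 : ℝ) ≤ y ^ 16 := le_trans (by norm_num) (pow_le_pow_left₀ (by norm_num) y3 16)
  have y7 : (mn : ℝ) ≤ 6 * ((2 * w + 2 * L + 3) * (L + 1)) := by
    exact_mod_cast hmn
  rw [y4]
  calc (mn : ℝ) ≤ 6 * ((4 * y ^ 7) * y) := by
        refine y7.trans ?_
        gcongr <;> linarith
    _ = 24 * y ^ 8 := by ring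
    _ ≤ y ^ 16 * y ^ 8 := by gcongr
    _ = _ := by ring

theorem exists_graph : ∃ (n : ℕ) (E : Vx n → Lt → Vx n → Prop), NoDiagram E ∧ Symm linv E ∧
    Det E ∧ (∀ v a v', E v a v' →
      colk (kind v') = ((colk (kind v)).1, !(colk (kind v)).2)) ∧
    ∀ v a, (∃ v', E v a v') ↔ tk (kind v) a = true := by
  obtain ⟨K, hK⟩ : ∃ K : ℕ, 1081344000000000 ≤ K := ⟨_, le_rfl⟩
  obtain ⟨NB, hNB⟩ : ∃ NB, NB = Dat.nodeBound K := ⟨_, rfl⟩
  obtain ⟨B, hB⟩ : ∃ B, B = 2 * NB + 1 := ⟨_, rfl⟩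
  obtain ⟨x, hx, hx1, hx2⟩ := exists_param K NB B (by omega)
  obtain ⟨L, hL⟩ : ∃ L, L = K * (2 * x) := ⟨_, rfl⟩
  have hL1 : 1 ≤ L := by rw [hL]; exact Nat.mul_pos (by omega) (by omega)
  have : NeZero L := ⟨by omega⟩
  obtain ⟨w, hw⟩ : ∃ w, w = (4 + 1) ^ (4 * x) := ⟨_, rfl⟩
  obtain ⟨n, hn⟩ : ∃ n, n = (2 * w + 2 * L + 3) * (L + 1) := ⟨_, rfl⟩
  have hn1 : 2 * w + 2 * L + 3 ≤ n := by rw [hn]; exact Nat.le_mul_of_pos_right _ (by omega)
  obtain ⟨mn, hmn⟩ : ∃ mn, mn + 2 * w + 2 * L = 6 * n := ⟨6 * n - (2 * w + 2 * L), by omega⟩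
  have hmn1 : (1 : ℝ) ≤ mn := by exact_mod_cast (by omega : 1 ≤ mn)
  have hL' : (0 : ℝ) < L := Nat.cast_pos.2 hL1
  have key : (6 * n + 3 : ℝ) ≤ (1 + 1 / L) * mn := by
    have a1 : L * (6 * n + 3) ≤ (L + 1) * mn := by nlinarith
    have a2 := (Nat.cast_le (α := ℝ)).2 a1
    push_cast at a2
    rw [show (1 + 1 / L : ℝ) = (L + 1) / L by field_simp, div_mul_eq_mul_div, le_div_iff₀ hL']
    linarith
  let T : Vx n → Lt → Prop := fun v a => tk (kind v) a = true
  let col : Vx n → Bool × Bool := fun v => colk (kind v)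
  let cb : Bool × Bool → Bool × Bool := fun c => (c.1, !c.2)
  have hcb : ∀ c, cb (cb c) = c := by simp [cb]
  have hd : ∀ v, {a | T v a}.ncard ≤ 4 := by
    intro v
    refine le_trans (le_of_eq ?_) (deg_le (kind v))
    rw [← Set.ncard_coe_finset]
    simp [T]
  have cls : ∀ a c, {v | T v a ∧ col v = c}.ncard =
      n * 6 + cX (fun k => tk k a && colk k == c) := by
    intro a c
    rw [← (class_cnt a c).1, ← ncard_kind]
    simp [T, col]
  have hne : (Cfg linv T col cb (4 * x)).Nonempty := by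
    obtain ⟨E, e1, e2, e3, e4, e5⟩ := erdos_sachs linv linv_linv linv_ne T 4 (4 * x) hd
      (fun v _ => col v) (fun _ c => cb c) (fun _ c => hcb c) (by
        intro a c
        rw [cls, cls, (class_cnt a c).2.2]) (by
        intro a c
        rw [cls, ← hw]
        omega)
    exact ⟨E, ⟨e1, e2, e3, e5⟩, e4⟩
  have em : Real.exp (Real.log mn) = mn := Real.exp_log (by linarith)
  have eD : Real.exp (Real.log (44 / 5)) = 44 / 5 := Real.exp_log (by norm_num)
  have eR : Real.exp (Real.log 3) = 3 := Real.exp_log (by norm_num)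
  obtain ⟨E, ⟨hE, hE'⟩, hW⟩ := exists_good_cfg (ι := linv) (T := T) (col := col) (cb := cb)
    (ns := fun a b => nsb a b = true) (a0 := (2, true)) (vd := (true, Sum.inr 0)) (L := L) (B := B)
    (m := Real.exp (Real.log mn)) (D := Real.exp (Real.log (44 / 5))) (R := Real.exp (Real.log 3))
    (θ := Real.exp ((2 * (NB : ℝ) - 4 * x / 31680) / K)) (ε := 1 / L) (cV := 16)
    linv_linv linv_ne hcb (g := 4 * x) hd mn em (by
      intro a c
      rw [cls, ← hw]
      omega) hne (by rw [em]; exact hmn1) (Real.exp_pos _) (Real.exp_pos _) (Real.exp_pos _).le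
    (by positivity) (by norm_num) (by
      intro c a b h1 h2
      obtain ⟨k1, k2⟩ := pair_cnt c a b h1 h2
      have k3 : {v | col v = c ∧ T v (linv a) ∧ T v b}.ncard ≤ 2 * n + 1 := by
        have := ncard_kind n fun k => colk k == c && (tk k (linv a) && tk k b)
        simp only [Bool.and_eq_true, beq_iff_eq] at this
        refine le_trans (le_of_eq this) ?_
        have := Nat.mul_le_mul_left n k1
        omega
      have k4 := (Nat.cast_le (α := ℝ)).2 k3
      push_cast at k4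
      rw [em, eR]
      linarith) (by
      intro c a
      have k4 := (Nat.cast_le (α := ℝ)).2 (class_cnt a c).2.1
      rw [em, cls]
      push_cast at k4 ⊢
      linarith) (by
      have : Fintype.card (Vx n) ≤ 16 * mn := by
        simp only [Fintype.card_prod, Fintype.card_sum, Fintype.card_bool, Fintype.card_fin]
        omega
      rw [em]
      exact_mod_cast this) hh one_le_hh (by simp [hh, sp, linv]) 10 (by norm_num) sum_hh (by
      intro a
      rw [eD]
      refine le_trans (le_of_eq (Finset.sum_congr rfl fun b _ => ?_)) (ker_hh a)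
      split_ifs <;> rfl) (by
      refine lt_of_le_of_lt ?_ hx2
      have k1 := card_st (Bool × Bool) L B
      rw [Nat.card_eq_fintype_card (α := Bool × Bool), Fintype.card_prod, Fintype.card_bool] at k1
      have k2 : (1 + 1 / L : ℝ) ^ L ≤ 3 := by
        calc _ ≤ Real.exp (1 / L) ^ L := by
              gcongr
              rw [add_comm]
              exact Real.add_one_le_exp _
          _ = Real.exp 1 := by rw [← Real.exp_nat_mul, mul_one_div_cancel hL'.ne']
          _ ≤ 3 := by linarith [Real.exp_one_lt_d9]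
      rw [← hL]
      gcongr)
  refine ⟨n, E, ?_, hE.symm, hE.det, fun v a v' h => (hE.typ v a v' h).2,
    fun v a => ⟨fun ⟨v', h⟩ => (hE.typ v a v' h).1, hE' v a⟩⟩
  refine noDiagram_of_no_witness (a' := x) hx hK hL (by omega) hE.symm hE.det hE.girth hE.typ
    nsb_symm nsb_cons _ _ (Real.log_nonneg hmn1) ?_ (Real.log_nonneg (by norm_num)) ?_ ?_ ?_ hW
  · exact log_bound hx hx1 hL hw (by omega) hmn1
  · rw [Real.log_le_iff_le_exp (by norm_num)]
    calc (44 / 5 : ℝ) ≤ 2.7 ^ 4 := by norm_num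
      _ ≤ Real.exp 1 ^ 4 := by
        gcongr
        linarith [Real.exp_one_gt_d9]
      _ = _ := by rw [← Real.exp_nat_mul]; norm_num
  · have a1 : Real.log (44 / 45) ≤ 44 / 45 - 1 := Real.log_le_sub_one_of_pos (by norm_num)
    have a2 : Real.log (44 / 5) = Real.log (44 / 45) + 2 * Real.log 3 := by
      rw [show (44 / 5 : ℝ) = 44 / 45 * 3 ^ 2 by norm_num, Real.log_mul (by norm_num) (by norm_num),
        Real.log_pow]
      norm_num
    linarith
  · have hK' : (0 : ℝ) < K := Nat.cast_pos.2 (by omega)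
    rw [← hNB, mul_div_cancel₀ _ hK'.ne']

theorem main : ∃ (G : Type) (_ : Group G), Group.IsFinitelyPresented G ∧
    (∀ g : G, IsOfFinOrder g → g = 1) ∧
    ∃ α β : MonoidAlgebra (ZMod 2) G, α ≠ 0 ∧ β ≠ 0 ∧ α * β = 0 := by
  obtain ⟨n, E, h1, h2, h3, h4, h5⟩ := exists_graph
  refine algebra_main h1 h2 h3 (fun v => sk (kind v)) (fun v => v.1)
    (fun v a v' h => ⟨congrArg Prod.fst (h4 v a v' h), congrArg Prod.snd (h4 v a v' h)⟩)
    (fun v => ck (kind v)) ?_ ?_ ?_
  · intro a b ha hb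
    rw [← parity _ _ ha hb]
    congr 2
    ext x
    simp only [Finset.mem_filter, h5]
  · have := ncard_kind n fun k => sk k && !k.1
    rw [side_cnt.1, side_cnt.2] at this
    have e : (Finset.univ.filter fun v : Vx n => sk (kind v) = true ∧ v.1 = false).card =
        n * 14 + 7 := by
      rw [← this, ← Set.ncard_coe_finset]
      congr 1
      ext v
      rw [Finset.mem_coe, Finset.mem_filter]
      simp [kind]
    rw [e]
    push_cast
    rw [show (14 : ZMod 2) = 0 from rfl, mul_zero, zero_add]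
    decide
  · have := sum_kind n fun k => if sk k = false ∧ k.1 = false then ck k else 0
    rw [coef_cnt.1, coef_cnt.2, smul_zero, zero_add] at this
    rw [Finset.sum_filter]
    refine ne_of_eq_of_ne (Eq.trans (Finset.sum_congr rfl fun v _ => ?_) this) one_ne_zero
    split_ifs <;> first | rfl | contradiction

end Vale.Agent.P201
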