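import Vale.Agent.P201.Wit

/-
Summing over the multiplicity levels of a cluster.
-/

namespace Vale.Agent.P201

open Equiv Classical Vale.Agent.P194

namespace Dat

variable {S V D : Type} (Q : Dat S V D) (ns : S × Bool → S × Bool → Prop)

/-- Ordinary turns at unbranched vertices. -/
def Ph (u : D × Bool) : Prop := Q.G2 (Q.vt u) ∧ ns (linv (Q.la (Q.nb u))) (Q.la u)

/-- The number of ordinary turns next to a dart. -/
noncomputable def wt (d : D) : ℕ :=
  (if Q.Ph ns (d, false) then 1 else 0) + (if Q.Ph ns (d, true) then 1 else 0)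

/-- The number of nodes next to a dart. -/
noncomputable def bd (d : D) : ℕ :=
  (if ¬ Q.G2 (Q.vt (d, false)) then 1 else 0) + (if ¬ Q.G2 (Q.vt (d, true)) then 1 else 0)

theorem nb_eta (d : D) (b : Bool) : Q.nb (d, b) = ((Q.nb (d, b)).1, !b) := by
  cases b <;> rfl

theorem sum_bd : ∑ d ∈ Q.Y, Q.bd d = Q.badH.card := by
  rw [badH, Finset.card_filter, Finset.sum_product]
  refine Finset.sum_congr rfl fun d _ => ?_
  rw [Fintype.sum_bool, bd, add_comm]

variable {Q ns}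

theorem Ok.sum_levels (h : Q.Ok) (φ : D → ℕ)
    (hφ : ∀ d ∈ Q.Y, ∀ d' ∈ Q.Y, Q.ed d = Q.ed d' → φ d = φ d') :
    ∑ j ∈ Finset.Icc 1 Q.K, ∑ d ∈ Q.actS j, φ d = ∑ d ∈ Q.Y, φ d := by
  rw [← Finset.sum_fiberwise_of_maps_to (s := Q.Y) (t := Q.Y.filter Q.Rep) (g := Q.rp)
    (fun d hd => Finset.mem_filter.2 ⟨(rp_spec hd).1.1, (rp_spec hd).1⟩)]
  simp only [actS, Finset.sum_filter (s := Q.Y) (p := fun d => Q.Rep d ∧ _)]
  rw [Finset.sum_comm, Finset.sum_filter]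
  refine Finset.sum_congr rfl fun d hd => ?_
  by_cases hr : Q.Rep d
  · rw [if_pos hr]
    have e : (Q.Y.filter fun d' => Q.rp d' = d) = Q.fib d := by
      refine Finset.filter_congr fun d' hd' => ⟨fun k => ?_, fun k => h.rp_eq hd' hr k.symm⟩
      rw [← k, (rp_spec hd').2]
    rw [e, Finset.sum_congr (s₁ := Q.fib d) rfl (g := fun _ => φ d) (fun d' hd' => hφ _
      (Finset.mem_filter.1 hd').1 _ hd (Finset.mem_filter.1 hd').2), Finset.sum_const,
      ← Finset.sum_filter, Finset.sum_const]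
    congr 1
    have : ((Finset.Icc 1 Q.K).filter fun j => Q.Rep d ∧ j ≤ Q.mu d) = Finset.Icc 1 (Q.mu d) := by
      ext j
      have := h.mu_le d
      simp only [Finset.mem_filter, Finset.mem_Icc, hr, true_and]
      omega
    rw [this, Nat.card_Icc]
    rfl
  · simp [hr]

theorem Ok.mu_le_bd (h : Q.Ok) (u : D × Bool) :
    Q.mu u.1 ≤ (Q.Y.filter fun d => Q.src d = Q.vt u).card +
      ((Q.Y.filter fun d => Q.σ d ∉ Q.Y).filter fun d => Q.src (Q.σ d) = Q.vt u).card := by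
  rw [← Finset.card_disjSum]
  have hT : ∀ d ∈ Q.fib u.1, Q.he (d, false) ≠ Q.he u → Q.he (d, true) = Q.he u := by
    intro d hd hn
    obtain ⟨b, hb⟩ := Q.ed_he (Finset.mem_filter.1 hd).2 u.2
    cases b
    · exact absurd hb hn
    · exact hb
  refine Finset.card_le_card_of_injOn (fun d => if Q.he (d, false) = Q.he u then Sum.inl d
    else if Q.σ d ∈ Q.Y then Sum.inl (Q.σ d) else Sum.inr d) ?_ ?_
  · intro d hd
    have hd := Finset.mem_coe.1 hd
    have hY := (Finset.mem_filter.1 hd).1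
    refine Finset.mem_coe.2 ?_
    dsimp only
    split_ifs with c1 c2
    · exact Finset.inl_mem_disjSum.2 (Finset.mem_filter.2 ⟨hY, vt_of_he c1⟩)
    · exact Finset.inl_mem_disjSum.2 (Finset.mem_filter.2 ⟨c2, vt_of_he (hT d hd c1)⟩)
    · exact Finset.inr_mem_disjSum.2 (Finset.mem_filter.2
        ⟨Finset.mem_filter.2 ⟨hY, c2⟩, vt_of_he (hT d hd c1)⟩)
  · intro d hd d' hd' e
    have hd := Finset.mem_coe.1 hd
    have hd' := Finset.mem_coe.1 hd'
    dsimp only at e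
    split_ifs at e with c1 c2 c3 c4 c5 c6 c7 c8
    · exact Sum.inl.inj e
    · refine absurd ?_ (h.la_nb (d', true))
      rw [la_of_he (hT d' hd' c2), ← la_of_he c1, Sum.inl.inj e]
      rfl
    · refine absurd ?_ (h.la_nb (d, true))
      rw [la_of_he (hT d hd c1), ← la_of_he c5, ← Sum.inl.inj e]
      rfl
    · exact Q.σ.injective (Sum.inl.inj e)
    · exact Sum.inr.inj e

theorem Ok.sum_vert [Fintype V] (h : Q.Ok) :
    ∑ j ∈ Finset.Icc 1 Q.K, ((Q.nodes j).card + (Q.innS j).card) ≤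
      Q.Y.card + (Q.Y.filter fun d => Q.σ d ∉ Q.Y).card := by
  have k1 : ∀ j, (Q.nodes j).card + (Q.innS j).card ≤
      (Finset.univ.filter fun v => ∃ u : D × Bool, u.1 ∈ Q.actS j ∧ Q.vt u = v).card := by
    intro j
    have inj : Set.InjOn Q.src (Q.innS j) := by
      intro d hd d' hd' e
      obtain ⟨a1, a2⟩ := Finset.mem_filter.1 (Finset.mem_coe.1 hd)
      obtain ⟨a3, -⟩ := Finset.mem_filter.1 (Finset.mem_coe.1 hd')
      have r1 := (mem_actS.1 a1).1
      have r3 := (mem_actS.1 a3).1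
      rcases (a2.1 (d, false) r1.1 rfl).2 (d', false) r3.1 e.symm with k | k
      · exact h.rep_uniq r1 r3 (h.ed_of_he k).symm
      · have := h.rep_uniq r3 (h.rep_nb (u := (d, false)) r1 a2.1) (h.ed_of_he k)
        refine absurd ?_ (h.no_loop r1.1 d')
        rw [← e, this]
        simp [nb]
    rw [← Finset.card_image_of_injOn inj, ← Finset.card_union_of_disjoint]
    · refine Finset.card_le_card fun v hv => Finset.mem_filter.2 ⟨Finset.mem_univ _, ?_⟩
      rcases Finset.mem_union.1 hv with k | k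
      · obtain ⟨u, hu, rfl⟩ := Finset.mem_image.1 k
        exact ⟨u, (Finset.mem_product.1 (Finset.mem_filter.1 hu).1).1, rfl⟩
      · obtain ⟨d, hd, rfl⟩ := Finset.mem_image.1 k
        exact ⟨(d, false), (Finset.mem_filter.1 hd).1, rfl⟩
    · refine Finset.disjoint_left.2 fun v k1 k2 => ?_
      obtain ⟨u, hu, rfl⟩ := Finset.mem_image.1 k1
      obtain ⟨d, hd, e⟩ := Finset.mem_image.1 k2
      exact (Finset.mem_filter.1 hu).2 (e ▸ (Finset.mem_filter.1 hd).2)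
  refine (Finset.sum_le_sum fun j _ => k1 j).trans ?_
  simp only [Finset.card_filter (s := (Finset.univ : Finset V))]
  rw [Finset.sum_comm, Finset.card_eq_sum_card_fiberwise (s := Q.Y) (t := Finset.univ)
    (f := Q.src) (fun _ _ => Finset.mem_coe.2 (Finset.mem_univ _)),
    Finset.card_eq_sum_card_fiberwise (s := Q.Y.filter fun d => Q.σ d ∉ Q.Y) (t := Finset.univ)
    (f := fun d => Q.src (Q.σ d)) (fun _ _ => Finset.mem_coe.2 (Finset.mem_univ _)),
    ← Finset.sum_add_distrib]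
  refine Finset.sum_le_sum fun v _ => ?_
  rw [← Finset.card_filter]
  refine le_trans (Finset.card_le_card (t := Finset.Icc 1 _) ?_) (by rw [Nat.card_Icc]; rfl)
  intro j hj
  obtain ⟨a1, u, a2, rfl⟩ := Finset.mem_filter.1 hj
  exact Finset.mem_Icc.2 ⟨(Finset.mem_Icc.1 a1).1, (mem_actS.1 a2).2.trans (h.mu_le_bd u)⟩

theorem ph_nb (hsym : ∀ a b, ns a b → ns (linv b) (linv a)) {u : D × Bool} (k : Q.Ph ns u) :
    Q.Ph ns (Q.nb u) := by
  refine ⟨by rw [vt_nb]; exact k.1, ?_⟩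
  have := hsym _ _ k.2
  rwa [nb_nb, linv_linv] at *

theorem Ok.ph_he (h : Q.Ok) {u u' : D × Bool} (hu : u.1 ∈ Q.Y) (hu' : u'.1 ∈ Q.Y)
    (e : Q.he u' = Q.he u) (k : Q.Ph ns u) : Q.Ph ns u' :=
  ⟨by rw [vt_of_he e]; exact k.1, by
    rw [la_of_he e, la_of_he (h.he_nb hu hu' k.1.1 e)]; exact k.2⟩

theorem Ok.wt_congr (h : Q.Ok) {d d' : D} (hd : d ∈ Q.Y) (hd' : d' ∈ Q.Y)
    (e : Q.ed d = Q.ed d') : Q.wt ns d = Q.wt ns d' := by
  have key : ∀ {u u' : D × Bool}, u.1 ∈ Q.Y → u'.1 ∈ Q.Y → Q.he u' = Q.he u →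
      (Q.Ph ns u' ↔ Q.Ph ns u) := fun h1 h2 e => ⟨h.ph_he h2 h1 e.symm, h.ph_he h1 h2 e⟩
  obtain ⟨b, hb⟩ := Q.ed_he e false
  have hb' := h.he_opp hb
  cases b
  · simp only [wt, key (u := (d', false)) (u' := (d, false)) hd' hd hb,
      key (u := (d', true)) (u' := (d, true)) hd' hd hb']
  · simp only [wt, key (u := (d', false)) (u' := (d, true)) hd' hd hb,
      key (u := (d', true)) (u' := (d, false)) hd' hd hb', add_comm]

theorem Ok.half_le (h : Q.Ok) (hsym : ∀ a b, ns a b → ns (linv b) (linv a)) (j : ℕ) (b : Bool)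
    (ψ : D → Prop) (hψ : ∀ u : D × Bool, u.1 ∈ Q.Y → Q.G2 (Q.vt u) → ψ u.1 → ψ (Q.nb u).1) :
    ((Q.actS j).filter fun d => Q.Ph ns (d, b) ∧ ψ d).card ≤
      ((Q.actS j).filter fun d => Q.Ph ns (d, !b) ∧ ψ d).card := by
  refine Finset.card_le_card_of_injOn (fun d => (Q.nb (d, b)).1) ?_ ?_
  · intro d hd
    obtain ⟨a1, a2, a3⟩ := Finset.mem_filter.1 (Finset.mem_coe.1 hd)
    refine Finset.mem_coe.2 (Finset.mem_filter.2 ⟨h.act_nb (u := (d, b)) a1 a2.1.1, ?_,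
      hψ (d, b) (mem_actS.1 a1).1.1 a2.1 a3⟩)
    rw [← nb_eta]
    exact ph_nb hsym a2
  · intro d _ d' _ e
    cases b
    · exact Q.σ⁻¹.injective e
    · exact Q.σ.injective e

theorem sum_wt_filter (F : Finset D) (ψ : D → Prop) : ∑ d ∈ F, (if ψ d then Q.wt ns d else 0) =
    (F.filter fun d => Q.Ph ns (d, false) ∧ ψ d).card +
      (F.filter fun d => Q.Ph ns (d, true) ∧ ψ d).card := by
  rw [Finset.card_filter, Finset.card_filter, ← Finset.sum_add_distrib]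
  refine Finset.sum_congr rfl fun d _ => ?_
  by_cases hψ : ψ d <;> simp [wt, hψ]

theorem ordS_eq (j : ℕ) : Q.ordS ns j = (Q.actS j).filter fun d => Q.Ph ns (d, false) := by
  rw [ordS, innS, Finset.filter_filter]
  refine Finset.filter_congr fun d _ => ?_
  simp [Ph, vt, nb, la, linv_linv]

theorem Ok.sum_ord (h : Q.Ok) (hsym : ∀ a b, ns a b → ns (linv b) (linv a)) :
    ∑ d ∈ Q.Y, Q.wt ns d ≤ 2 * ∑ j ∈ Finset.Icc 1 Q.K, (Q.ordS ns j).card := by
  rw [← h.sum_levels _ fun d hd d' hd' e => h.wt_congr hd hd' e, Finset.mul_sum]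
  refine Finset.sum_le_sum fun j _ => ?_
  have a1 := sum_wt_filter (Q := Q) (ns := ns) (Q.actS j) fun _ => True
  have a2 := h.half_le hsym j true (fun _ => True) fun _ _ _ _ => trivial
  simp only [if_true, and_true, Bool.not_true] at a1 a2
  rw [ordS_eq]
  omega

theorem Ok.sum_fr (h : Q.Ok) (hsym : ∀ a b, ns a b → ns (linv b) (linv a)) :
    2 * ∑ j ∈ Finset.Icc 1 Q.K, (Q.frS ns j).card ≤
      ∑ d ∈ Q.Y, if Q.Free d then Q.wt ns d else 0 := by
  rw [← h.sum_levels _ fun d hd d' hd' e => by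
    rw [h.wt_congr hd hd' e, show Q.Free d ↔ Q.Free d' from
      ⟨h.free_congr hd hd' e, h.free_congr hd' hd e.symm⟩], Finset.mul_sum]
  refine Finset.sum_le_sum fun j _ => ?_
  have a1 := sum_wt_filter (Q := Q) (ns := ns) (Q.actS j) Q.Free
  have a2 := h.half_le hsym j false Q.Free fun u hu hG hf =>
    h.free_nb (u := Q.nb u) (hG.1 u hu rfl).1.1 (by rwa [vt_nb]) (by rwa [nb_nb])
  rw [frS, ordS_eq, Finset.filter_filter]
  simp only [Bool.not_false] at a2
  omega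

theorem Ok.wt_τ (h : Q.Ok) {d : D} (hd : d ∈ Q.Y) :
    Q.wt ns d ≤ Q.wt ns (Q.τ d) + Q.bd (Q.τ d) := by
  have key : ∀ b, Q.Ph ns (d, b) → Q.G2 (Q.vt (Q.τ d, !b)) → Q.Ph ns (Q.τ d, !b) := by
    intro b k1 k2
    refine ⟨k2, ?_⟩
    change ns (linv (Q.la (Q.nb (Q.mir (d, b))))) (Q.la (Q.mir (d, b)))
    rw [← (k1.1.2 (d, b) hd rfl).1, h.la_mir, h.la_mir]
    exact k1.2
  have k1 := key false
  have k2 := key true
  simp only [Bool.not_false, Bool.not_true] at k1 k2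
  simp only [wt, bd]
  split_ifs <;> first | omega | tauto

theorem Ok.free_sum (h : Q.Ok) : 2 * ∑ d ∈ Q.Y, (if Q.Free d then Q.wt ns d else 0) ≤
    ∑ d ∈ Q.Y, Q.wt ns d + 2 * (Q.Y.filter fun d => Q.τ d ∉ Q.Y).card + Q.badH.card := by
  rw [← Finset.sum_filter]
  have a1 := Finset.sum_filter_add_sum_filter_not Q.Y Q.Free (Q.wt ns)
  have a2 := Finset.sum_filter_add_sum_filter_not (Q.Y.filter fun d => Q.Free d) (fun d => Q.τ d ∈ Q.Y)
    (Q.wt ns)
  have a3 : ∑ d ∈ (Q.Y.filter fun d => Q.Free d).filter (fun d => ¬ Q.τ d ∈ Q.Y), Q.wt ns d ≤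
      (Q.Y.filter fun d => Q.τ d ∉ Q.Y).card * 2 := by
    refine le_trans (Finset.sum_le_card_nsmul _ _ 2 fun d _ => ?_) (Nat.mul_le_mul_right _
      (Finset.card_le_card (Finset.filter_subset_filter _ (Finset.filter_subset _ _))))
    simp only [wt]
    split_ifs <;> omega
  have a4 : ∑ d ∈ (Q.Y.filter fun d => Q.Free d).filter (fun d => Q.τ d ∈ Q.Y), Q.wt ns d ≤
      ∑ d ∈ Q.Y.filter (fun d => ¬ Q.Free d), (Q.wt ns d + Q.bd d) := by
    refine le_trans (Finset.sum_le_sum fun d hd => h.wt_τ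
      (Finset.mem_filter.1 (Finset.mem_filter.1 hd).1).1) ?_
    rw [← Finset.sum_image (f := fun d => Q.wt ns d + Q.bd d) Q.τ.injective.injOn]
    refine Finset.sum_le_sum_of_subset fun x hx => ?_
    obtain ⟨d, hd, rfl⟩ := Finset.mem_image.1 hx
    obtain ⟨b1, b2⟩ := Finset.mem_filter.1 hd
    obtain ⟨b3, b4⟩ := Finset.mem_filter.1 b1
    refine Finset.mem_filter.2 ⟨b2, fun k => k (Q.τ d) ⟨b2, rfl, by rwa [h.dg.invol], ?_⟩⟩
    rw [h.dg.invol]
    have c1 : ¬ Q.rk (Q.τ d) < Q.rk d := fun k => b4 d ⟨b3, rfl, b2, k⟩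
    have c2 : Q.rk (Q.τ d) ≠ Q.rk d := fun k => h.ed_τ d (h.rk_inj b2 b3 k)
    omega
  rw [Finset.sum_add_distrib] at a4
  have a5 : ∑ d ∈ Q.Y.filter (fun d => ¬ Q.Free d), Q.bd d ≤ Q.badH.card := by
    rw [← sum_bd]
    exact Finset.sum_le_sum_of_subset (Finset.filter_subset _ _)
  omega

theorem card_le_wt (hsym : ∀ a b, ns a b → ns (linv b) (linv a))
    (hcons : ∀ a b c, ns a b ∨ ns b c) : Q.Y.card ≤ ∑ d ∈ Q.Y, Q.wt ns d + Q.badH.card := by
  rw [← sum_bd, ← Finset.sum_add_distrib, Finset.card_eq_sum_ones]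
  refine Finset.sum_le_sum fun d _ => ?_
  have key : Q.G2 (Q.vt (d, false)) → Q.G2 (Q.vt (d, true)) →
      Q.Ph ns (d, false) ∨ Q.Ph ns (d, true) := by
    intro k1 k2
    rcases hcons (Q.lt (Q.σ⁻¹ d)) (Q.lt d) (Q.lt (Q.σ d)) with k | k
    · exact Or.inl ⟨k1, by simpa [nb, la, linv_linv] using k⟩
    · exact Or.inr ⟨k2, hsym _ _ k⟩
  simp only [wt, bd]
  split_ifs <;> first | omega | tauto

theorem Ok.exists_level [Fintype V] (h : Q.Ok) (hY : Q.Y.Nonempty)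
    (hsym : ∀ a b, ns a b → ns (linv b) (linv a)) (hcons : ∀ a b c, ns a b ∨ ns b c)
    {a b c t δ : ℝ} (ha : 0 ≤ a) (hb : 0 ≤ b) (hδ : 0 ≤ δ) (hc : b + 4 * δ ≤ 2 * c)
    (hnum : (Q.Y.filter fun d => Q.σ d ∉ Q.Y).card * a +
      (2 * (Q.Y.filter fun d => Q.τ d ∉ Q.Y).card + Q.badH.card) * b / 4 + δ * Q.badH.card ≤
      Q.K * t + δ * Q.Y.card) :
    ∃ j, Real.exp a ^ ((Q.nodes j).card + (Q.innS j).card) * Real.exp b ^ (Q.frS ns j).card ≤
      Real.exp t * Real.exp a ^ (Q.actS j).card * Real.exp c ^ (Q.ordS ns j).card := by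
  obtain ⟨d, hd⟩ := hY
  have hK := h.hblk d hd
  obtain ⟨j, -, hj⟩ := Finset.exists_le_of_sum_le (s := Finset.Icc 1 Q.K)
    ⟨1, Finset.mem_Icc.2 ⟨le_rfl, by omega⟩⟩
    (f := fun j => (((Q.nodes j).card + (Q.innS j).card : ℕ) : ℝ) * a + (Q.frS ns j).card * b)
    (g := fun j => t + (Q.actS j).card * a + (Q.ordS ns j).card * c) (by
      have e0 := h.sum_levels (fun _ => 1) fun _ _ _ _ _ => rfl
      simp only [← Finset.card_eq_sum_ones] at e0
      have e1 := (Nat.cast_le (α := ℝ)).2 h.sum_vert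
      have e2 := (Nat.cast_le (α := ℝ)).2 (h.sum_ord hsym)
      have e3 := (Nat.cast_le (α := ℝ)).2 ((Nat.mul_le_mul_left 2 (h.sum_fr hsym)).trans h.free_sum)
      have e4 := (Nat.cast_le (α := ℝ)).2 (card_le_wt (Q := Q) hsym hcons)
      simp only [Finset.sum_add_distrib, ← Finset.sum_mul, ← Nat.cast_sum, e0, Finset.sum_const,
        Nat.card_Icc, Nat.add_sub_cancel, nsmul_eq_mul] at e1 ⊢
      push_cast at e1 e2 e3 e4 ⊢
      have f1 := mul_le_mul_of_nonneg_right e1 ha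
      have f2 := mul_le_mul_of_nonneg_right e2 (show 0 ≤ c by linarith)
      have f3 := mul_le_mul_of_nonneg_right e3 hb
      have f4 := mul_le_mul_of_nonneg_right e4 hδ
      have f5 := mul_le_mul_of_nonneg_right hc
        (show (0 : ℝ) ≤ ∑ d ∈ Q.Y, (Q.wt ns d : ℝ) by positivity)
      nlinarith)
  refine ⟨j, ?_⟩
  simp only [← Real.exp_nat_mul, ← Real.exp_add]
  exact Real.exp_le_exp.2 hj

end Dat

end Vale.Agent.P201
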