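import Vale.Agent.P194.Sachs

/-
Switching: in the uniform model of graphs of large girth with prescribed types, a given set of
edges is present with small probability.
-/

namespace Vale.Agent.P201

open Classical Vale.Agent.P194

/-- Partial graphs with prescribed types and colours and large girth. -/
structure Adm {V Λ C : Type} (ι : Λ → Λ) (T : V → Λ → Prop) (col : V → C) (cb : C → C) (g : ℕ)
    (E : V → Λ → V → Prop) : Prop where
  symm : Symm ι E
  det : Det E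
  girth : Girth ι E g
  typ : ∀ v a v', E v a v' → T v a ∧ col v' = cb (col v)

/-- Complete graphs with prescribed types and colours and large girth. -/
def Cfg {V Λ C : Type} (ι : Λ → Λ) (T : V → Λ → Prop) (col : V → C) (cb : C → C) (g : ℕ) :
    Set (V → Λ → V → Prop) :=
  {E | Adm ι T col cb g E ∧ ∀ v a, T v a → ∃ v', E v a v'}

section
variable {V Λ C : Type} {ι : Λ → Λ} {T : V → Λ → Prop} {col : V → C} {cb : C → C} {g : ℕ}

theorem Adm.del (hι : ∀ a, ι (ι a) = a) {E : V → Λ → V → Prop} (h : Adm ι T col cb g E)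
    (p : V) (s : Λ) (q : V) : Adm ι T col cb g (DelE ι E p s q) :=
  ⟨delE_symm hι h.symm _ _ _, fun _ _ _ _ h1 h2 => h.det _ _ _ _ h1.1 h2.1,
    fun x w h1 h2 h3 => h.girth x w h1 (h2.mono fun _ _ _ k => k.1) h3,
    fun _ _ _ k => h.typ _ _ _ k.1⟩

theorem Adm.add (hι : ∀ a, ι (ι a) = a) (hι' : ∀ a, ι a ≠ a) (hcb : ∀ c, cb (cb c) = c)
    {E : V → Λ → V → Prop} (h : Adm ι T col cb g E) {p q : V} {s : Λ} (tp : T p s)
    (tq : T q (ι s)) (hc : col q = cb (col p)) (np : ¬ ∃ y, E p s y) (nq : ¬ ∃ y, E q (ι s) y)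
    (far : ∀ w, Path E p w q → g ≤ w.length + 1) : Adm ι T col cb g (AddE ι E p s q) := by
  refine ⟨addE_symm hι h.symm _ _ _, addE_det hι' h.det np nq, addE_girth hι h.symm h.girth far,
    ?_⟩
  rintro v a v' (k | ⟨rfl, rfl, rfl⟩ | ⟨rfl, rfl, rfl⟩)
  · exact h.typ _ _ _ k
  · exact ⟨tp, hc⟩
  · exact ⟨tq, by rw [hc, hcb]⟩

theorem Adm.switch (hι : ∀ a, ι (ι a) = a) (hι' : ∀ a, ι a ≠ a) (hcb : ∀ c, cb (cb c) = c)
    {E : V → Λ → V → Prop} (h : Adm ι T col cb g E) {p q p' q' : V} {s : Λ} (tp : T p s)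
    (tq : T q (ι s)) (hc : col q = cb (col p)) (hp : ¬ ∃ y, E p s y) (nq : ¬ ∃ y, E q (ι s) y)
    (hc' : col p' = col p) (farp : ∀ w, Path E p w p' → g < w.length)
    (farq : ∀ w, Path E q w p' → g < w.length) (hq' : E p' s q') :
    Adm ι T col cb g (AddE ι (AddE ι (DelE ι E p' s q') p s q') p' s q) := by
  have hs := h.symm
  have hdet := h.det
  have hg := h.girth
  have hq'' := hs _ _ _ hq'
  have sub : ∀ x a y, DelE ι E p' s q' x a y → E x a y := fun _ _ _ h => h.1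
  have A1 := h.del hι p' s q'
  have A2 : Adm ι T col cb g (AddE ι (DelE ι E p' s q') p s q') := by
    refine A1.add hι hι' hcb tp (h.typ _ _ _ hq'').1 ?_ ?_ ?_ ?_
    · rw [(h.typ _ _ _ hq').2, hc']
    · rintro ⟨y, hy⟩
      exact hp ⟨y, hy.1⟩
    · rintro ⟨y, hy⟩
      exact hy.2 (Or.inr ⟨rfl, rfl, hdet _ _ _ _ hy.1 hq''⟩)
    · intro w hw
      have := farp _ ((hw.mono sub).append (Path.single hq''))
      simp at this
      omega
  have hpp : p' ≠ p := by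
    rintro rfl
    simpa using farp _ (Path.nil _)
  have hqq : q ≠ q' := by
    rintro rfl
    exact nq ⟨_, hq''⟩
  refine A2.add hι hι' hcb (h.typ _ _ _ hq').1 tq (by rw [hc, hc']) ?_ ?_ ?_
  · rintro ⟨y, hy | ⟨h, -, -⟩ | ⟨-, h, -⟩⟩
    · exact hy.2 (Or.inl ⟨rfl, rfl, hdet _ _ _ _ hy.1 hq'⟩)
    · exact hpp h
    · exact hι' _ h.symm
  · rintro ⟨y, hy | ⟨-, h, -⟩ | ⟨h, -, -⟩⟩
    · exact nq ⟨y, hy.1⟩
    · exact hι' _ h
    · exact hqq h
  · intro w hw
    rcases addE_split hw with h | ⟨w1, a, w2, x1, y1, rfl, e1, e2, -⟩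
    · have := farq _ ((h.mono sub).inv hs)
      simp at this
      omega
    · rcases e2 with ⟨rfl, -, -⟩ | ⟨rfl, -, -⟩
      · have := farp _ ((e1.mono sub).inv hs)
        simp at this ⊢
        omega
      · obtain ⟨w', r1, r2, r3⟩ := e1.exists_red A1.symm A1.det
        by_contra hcon
        have hred : Red ι (w' ++ [ι s]) := by
          refine red_append_iff.2 ⟨r1, red_single _, ?_⟩
          intro b hb c' hc' e
          simp at hc'
          have hbs : b = s := by rw [← hι b, ← e, ← hc', hι]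
          subst hbs
          obtain ⟨w'', rfl⟩ := List.getLast?_eq_some_iff.1 hb
          obtain ⟨y, -, hy⟩ := path_append_iff.1 r3
          obtain ⟨y', hy1, hy2⟩ := path_cons_iff.1 hy
          rw [path_nil_iff.1 hy2] at hy1
          exact hy1.2 (Or.inl ⟨hdet _ _ _ _ (hs _ _ _ hy1.1) hq'', rfl, rfl⟩)
        have := hg _ _ hred ((r3.mono sub).append (Path.single hq''))
          (by simp at hcon ⊢; omega)
        simp at this

/-- The switched graph. -/
def sw (ι : Λ → Λ) (E : V → Λ → V → Prop) (p q p' q' : V) (s : Λ) : V → Λ → V → Prop :=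
  AddE ι (AddE ι (DelE ι (DelE ι E p s q) p' s q') p s q') p' s q

theorem sw_recover (hι : ∀ a, ι (ι a) = a) {E : V → Λ → V → Prop} (hs : Symm ι E) (hd : Det E)
    {p q p' q' : V} {s : Λ} (h1 : E p s q) (h2 : E p' s q') (x : V) (a : Λ) (y : V) :
    E x a y ↔ (sw ι E p q p' q' s x a y ∧ ¬ NewE ι p s q' x a y ∧ ¬ NewE ι p' s q x a y) ∨
      NewE ι p s q x a y ∨ NewE ι p' s q' x a y := by
  have back : ∀ x y, E y (ι s) x → E x s y := fun x y k => by
    have := hs _ _ _ k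
    rwa [hι] at this
  constructor
  · intro h
    by_cases c1 : NewE ι p s q x a y
    · exact Or.inr (Or.inl c1)
    by_cases c2 : NewE ι p' s q' x a y
    · exact Or.inr (Or.inr c2)
    refine Or.inl ⟨Or.inl (Or.inl ⟨⟨h, c1⟩, c2⟩), ?_, ?_⟩
    · rintro (⟨rfl, rfl, rfl⟩ | ⟨rfl, rfl, rfl⟩)
      · exact c1 (Or.inl ⟨rfl, rfl, hd _ _ _ _ h h1⟩)
      · exact c1 (Or.inr ⟨hd _ _ _ _ (back _ _ h) h1, rfl, rfl⟩)
    · rintro (⟨rfl, rfl, rfl⟩ | ⟨rfl, rfl, rfl⟩)
      · exact c2 (Or.inl ⟨rfl, rfl, hd _ _ _ _ h h2⟩)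
      · exact c2 (Or.inr ⟨hd _ _ _ _ (back _ _ h) h2, rfl, rfl⟩)
  · rintro (⟨(h | h) | h, c1, c2⟩ | (⟨rfl, rfl, rfl⟩ | ⟨rfl, rfl, rfl⟩) |
      ⟨rfl, rfl, rfl⟩ | ⟨rfl, rfl, rfl⟩)
    · exact h.1.1
    · exact absurd h c1
    · exact absurd h c2
    · exact h1
    · exact hs _ _ _ h1
    · exact h2
    · exact hs _ _ _ h2

theorem switch_count [Finite V] [Finite Λ] (hι : ∀ a, ι (ι a) = a) (hι' : ∀ a, ι a ≠ a)
    (hcb : ∀ c, cb (cb c) = c) {d : ℕ} (hd : ∀ v, {a | T v a}.ncard ≤ d) {m k : ℕ}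
    (hm : ∀ a c, m + 2 * (d + 1) ^ g + 2 * k ≤ {v | T v a ∧ col v = c}.ncard)
    (K : Finset (V × Λ × V)) (hK : K.card ≤ k) {p q : V} {s : Λ} (h1 : (p, s, q) ∉ K)
    (h2 : (q, ι s, p) ∉ K) :
    {E ∈ Cfg ι T col cb g | E p s q ∧ ∀ e ∈ K, E e.1 e.2.1 e.2.2}.ncard * m ≤
      {E ∈ Cfg ι T col cb g | ∀ e ∈ K, E e.1 e.2.1 e.2.2}.ncard := by
  have := Fintype.ofFinite V
  let P : (V → Λ → V → Prop) → Finset V := fun E => Finset.univ.filter fun p' =>
    (T p' s ∧ col p' = col p) ∧ (∀ w, Path E p w p' → g < w.length) ∧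
      (∀ w, Path E q w p' → g < w.length) ∧ ∀ e ∈ K, p' ≠ e.1 ∧ p' ≠ e.2.2
  have hP : ∀ E ∈ Cfg ι T col cb g, m ≤ (P E).card := by
    intro E hE
    have hdeg : ∀ v, {a | ∃ y, E v a y}.ncard ≤ d := fun v =>
      le_trans (Set.ncard_le_ncard (fun a ⟨y, hy⟩ => (hE.1.typ _ _ _ hy).1) (Set.toFinite _)) (hd v)
    have a1 := ball_ncard hE.1.det hdeg g p
    have a2 := ball_ncard hE.1.det hdeg g q
    have a3 : (K.image fun e => e.1).card ≤ k := Finset.card_image_le.trans hK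
    have a4 : (K.image fun e => e.2.2).card ≤ k := Finset.card_image_le.trans hK
    have hsub : {v | T v s ∧ col v = col p} ⊆ (↑(P E) ∪
        ({y | ∃ w : List Λ, w.length ≤ g ∧ Path E p w y} ∪
          {y | ∃ w : List Λ, w.length ≤ g ∧ Path E q w y})) ∪
        (↑(K.image fun e => e.1) ∪ ↑(K.image fun e => e.2.2)) := by
      intro v hv
      by_contra hn
      simp only [Set.mem_union, not_or, Set.mem_ofPred_eq, not_exists, not_and, P,
        Finset.coe_filter, Finset.mem_univ, true_and, Finset.coe_image, Set.mem_image,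
        Finset.mem_coe] at hn
      refine hn.1.1 hv (fun w hw => ?_) (fun w hw => ?_) fun e he =>
        ⟨fun k => hn.2.1 e he k.symm, fun k => hn.2.2 e he k.symm⟩
      · by_contra hh
        exact hn.1.2.1 w (by omega) hw
      · by_contra hh
        exact hn.1.2.2 w (by omega) hw
    have b0 := Set.ncard_le_ncard hsub (Set.toFinite _)
    have b1 := Set.ncard_union_le (↑(P E) ∪
        ({y | ∃ w : List Λ, w.length ≤ g ∧ Path E p w y} ∪
          {y | ∃ w : List Λ, w.length ≤ g ∧ Path E q w y}))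
        (↑(K.image fun e => e.1) ∪ ↑(K.image fun e => e.2.2) : Set V)
    have b2 := Set.ncard_union_le (↑(P E) : Set V)
        ({y | ∃ w : List Λ, w.length ≤ g ∧ Path E p w y} ∪
          {y | ∃ w : List Λ, w.length ≤ g ∧ Path E q w y})
    have b3 := Set.ncard_union_le {y | ∃ w : List Λ, w.length ≤ g ∧ Path E p w y}
          {y | ∃ w : List Λ, w.length ≤ g ∧ Path E q w y}
    have b4 := Set.ncard_union_le (↑(K.image fun e => e.1) : Set V) ↑(K.image fun e => e.2.2)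
    rw [Set.ncard_coe_finset, Set.ncard_coe_finset] at b4
    rw [Set.ncard_coe_finset] at b2
    have b5 := hm s (col p)
    omega
  have hq' : ∀ (E : V → Λ → V → Prop) (p' : V), ∃ q', (∃ y, E p' s y) → E p' s q' := by
    intro E p'
    by_cases h : ∃ y, E p' s y
    · obtain ⟨y, hy⟩ := h
      exact ⟨y, fun _ => hy⟩
    · exact ⟨p', fun h' => absurd h' h⟩
  choose nx hnx using hq'
  set A := {E ∈ Cfg ι T col cb g | E p s q ∧ ∀ e ∈ K, E e.1 e.2.1 e.2.2} with hA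
  have hfin : A.Finite := Set.toFinite _
  have key : ∀ E ∈ A, ∀ p' ∈ P E, E p' s (nx E p') ∧
      sw ι E p q p' (nx E p') s ∈ {E ∈ Cfg ι T col cb g | ∀ e ∈ K, E e.1 e.2.1 e.2.2} := by
    rintro E ⟨⟨hE, hfull⟩, hpq, hEK⟩ p' hp'
    obtain ⟨⟨t1, t2⟩, f1, f2, f3⟩ := (Finset.mem_filter.1 hp').2
    have e1 := hnx E p' (hfull _ _ t1)
    have hpp : p' ≠ p := by
      rintro rfl
      simpa using f1 _ (Path.nil _)
    have sub : ∀ x a y, DelE ι E p s q x a y → E x a y := fun _ _ _ h => h.1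
    refine ⟨e1, ⟨(hE.del hι p s q).switch hι hι' hcb (hE.typ _ _ _ hpq).1
      (hE.typ _ _ _ (hE.symm _ _ _ hpq)).1 (hE.typ _ _ _ hpq).2 ?_ ?_ t2
      (fun w hw => f1 w (hw.mono sub)) (fun w hw => f2 w (hw.mono sub)) ⟨e1, ?_⟩, ?_⟩, ?_⟩
    · rintro ⟨y, hy⟩
      exact hy.2 (Or.inl ⟨rfl, rfl, hE.det _ _ _ _ hy.1 hpq⟩)
    · rintro ⟨y, hy⟩
      exact hy.2 (Or.inr ⟨rfl, rfl, hE.det _ _ _ _ hy.1 (hE.symm _ _ _ hpq)⟩)
    · rintro (⟨k, -, -⟩ | ⟨-, k, -⟩)
      · exact hpp k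
      · exact hι' _ k.symm
    · intro v a hva
      obtain ⟨y, hy⟩ := hfull v a hva
      rcases (sw_recover hι hE.symm hE.det hpq e1 v a y).1 hy with k |
        (⟨rfl, rfl, -⟩ | ⟨rfl, rfl, -⟩) | ⟨rfl, rfl, -⟩ | ⟨rfl, rfl, -⟩
      · exact ⟨y, k.1⟩
      · exact ⟨_, Or.inl (Or.inr (Or.inl ⟨rfl, rfl, rfl⟩))⟩
      · exact ⟨_, Or.inr (Or.inr ⟨rfl, rfl, rfl⟩)⟩
      · exact ⟨_, Or.inr (Or.inl ⟨rfl, rfl, rfl⟩)⟩
      · exact ⟨_, Or.inl (Or.inr (Or.inr ⟨rfl, rfl, rfl⟩))⟩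
    · rintro ⟨x, a, y⟩ he
      refine Or.inl (Or.inl ⟨⟨hEK _ he, ?_⟩, ?_⟩)
      · rintro (⟨rfl, rfl, rfl⟩ | ⟨rfl, rfl, rfl⟩)
        · exact h1 he
        · exact h2 he
      · rintro (⟨k, -, -⟩ | ⟨-, -, k⟩)
        · exact (f3 _ he).1 k.symm
        · exact (f3 _ he).2 k.symm
  rw [Set.ncard_eq_toFinset_card A hfin, Set.ncard_eq_toFinset_card _ (Set.toFinite _)]
  calc hfin.toFinset.card * m = ∑ _E ∈ hfin.toFinset, m := by simp
    _ ≤ ∑ E ∈ hfin.toFinset, (P E).card :=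
        Finset.sum_le_sum fun E hE => hP E ((Set.Finite.mem_toFinset _).1 hE).1
    _ = (hfin.toFinset.sigma P).card := (Finset.card_sigma _ _).symm
    _ ≤ _ := by
        refine Finset.card_le_card_of_injOn (fun z => sw ι z.1 p q z.2 (nx z.1 z.2) s) ?_ ?_
        · rintro ⟨E, p'⟩ hz
          obtain ⟨z1, z2⟩ := Finset.mem_sigma.1 (Finset.mem_coe.1 hz)
          exact Finset.mem_coe.2 ((Set.Finite.mem_toFinset _).2
            (key E ((Set.Finite.mem_toFinset _).1 z1) p' z2).2)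
        · rintro ⟨E, p'⟩ hz ⟨E2, p2⟩ hz2 heq
          obtain ⟨z1, z2⟩ := Finset.mem_sigma.1 (Finset.mem_coe.1 hz)
          obtain ⟨z3, z4⟩ := Finset.mem_sigma.1 (Finset.mem_coe.1 hz2)
          have y1 : E ∈ A := (Set.Finite.mem_toFinset _).1 z1
          have y3 : E2 ∈ A := (Set.Finite.mem_toFinset _).1 z3
          obtain ⟨k1, k2⟩ := key E y1 p' z2
          obtain ⟨k3, -⟩ := key E2 y3 p2 z4
          dsimp only at heq
          have a1 : sw ι E p q p' (nx E p') s q (ι s) p' := Or.inr (Or.inr ⟨rfl, rfl, rfl⟩)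
          have a2 : sw ι E p q p' (nx E p') s q (ι s) p2 := by
            rw [heq]
            exact Or.inr (Or.inr ⟨rfl, rfl, rfl⟩)
          obtain rfl : p' = p2 := k2.1.1.det _ _ _ _ a1 a2
          have a3 : sw ι E p q p' (nx E p') s p s (nx E p') :=
            Or.inl (Or.inr (Or.inl ⟨rfl, rfl, rfl⟩))
          have a4 : sw ι E p q p' (nx E p') s p s (nx E2 p') := by
            rw [heq]
            exact Or.inl (Or.inr (Or.inl ⟨rfl, rfl, rfl⟩))
          have a5 := k2.1.1.det _ _ _ _ a3 a4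
          obtain rfl : E = E2 := by
            funext x a y
            rw [sw_recover hι y1.1.1.symm y1.1.1.det y1.2.1 k1,
              sw_recover hι y3.1.1.symm y3.1.1.det y3.2.1 k3, heq, a5]
          rfl

theorem prob_bound [Finite V] [Finite Λ] (hι : ∀ a, ι (ι a) = a) (hι' : ∀ a, ι a ≠ a)
    (hcb : ∀ c, cb (cb c) = c) {d : ℕ} (hd : ∀ v, {a | T v a}.ncard ≤ d) {m k : ℕ}
    (hm : ∀ a c, m + 2 * (d + 1) ^ g + 2 * k ≤ {v | T v a ∧ col v = c}.ncard)
    (K : Finset (V × Λ × V)) : K.card ≤ k → (∀ e ∈ K, (e.2.2, ι e.2.1, e.1) ∉ K) →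
    {E ∈ Cfg ι T col cb g | ∀ e ∈ K, E e.1 e.2.1 e.2.2}.ncard * m ^ K.card ≤
      (Cfg ι T col cb g).ncard := by
  induction K using Finset.induction_on with
  | empty => simp
  | insert e K he ih =>
    intro hK hK'
    rw [Finset.card_insert_of_notMem he] at hK ⊢
    have a1 := ih (by omega) fun e' he' k =>
      hK' e' (Finset.mem_insert_of_mem he') (Finset.mem_insert_of_mem k)
    have a2 := switch_count hι hι' hcb hd hm K (by omega) (p := e.1) (q := e.2.2) (s := e.2.1) he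
      fun k => hK' e (Finset.mem_insert_self _ _) (Finset.mem_insert_of_mem k)
    simp only [Finset.forall_mem_insert]
    calc _ = _ * m * m ^ K.card := by ring
      _ ≤ _ * m ^ K.card := Nat.mul_le_mul_right _ a2
      _ ≤ _ := a1

end

end Vale.Agent.P201
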