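import Vale.Agent.P201.Half
import Vale.Agent.P201.Count

/-
Each multiplicity level of a cluster gives a witness for the first moment bound.
-/

namespace Vale.Agent.P201

open Equiv Classical Vale.Agent.P194

namespace Dat

variable {S V D : Type} (Q : Dat S V D)

/-- Representatives of edges of multiplicity at least `j`. -/
noncomputable def actS (j : ℕ) : Finset D := Q.Y.filter fun d => Q.Rep d ∧ j ≤ Q.mu d

/-- Those preceded by an unbranched vertex. -/
noncomputable def innS (j : ℕ) : Finset D := (Q.actS j).filter fun d => Q.G2 (Q.src d)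

/-- Those preceded by an ordinary turn. -/
noncomputable def ordS (ns : S × Bool → S × Bool → Prop) (j : ℕ) : Finset D :=
  (Q.innS j).filter fun d => ns (Q.lt (Q.σ⁻¹ d)) (Q.lt d)

/-- Those which are free. -/
noncomputable def frS (ns : S × Bool → S × Bool → Prop) (j : ℕ) : Finset D :=
  (Q.ordS ns j).filter Q.Free

/-- The nodes of a level. -/
noncomputable def nodes (j : ℕ) : Finset V :=
  ((Q.actS j ×ˢ Finset.univ).filter fun u => ¬ Q.G2 (Q.vt u)).image Q.vt

/-- The half darts at nodes. -/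
noncomputable def badH : Finset (D × Bool) :=
  (Q.Y ×ˢ Finset.univ).filter fun u => ¬ Q.G2 (Q.vt u)

/-- The pointer to an earlier edge which determines the letter. -/
noncomputable def ptr (L : ℕ) [NeZero L] (d : D) : Option (Fin L × Bool) :=
  if h : ∃ x, Q.FstAt d x then some (Fin.ofNat L (Q.pos (Q.rp (Q.τ h.choose))),
    decide (Q.lt d = Q.lt (Q.rp (Q.τ h.choose)))) else none

variable {Q} {L : ℕ} [NeZero L]

theorem ptr_none {d : D} : Q.ptr L d = none ↔ Q.Free d := by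
  constructor
  · intro h
    by_contra hn
    rw [ptr, dif_pos (exists_fstAt hn)] at h
    exact absurd h (by simp)
  · intro h
    exact dif_neg fun ⟨x, hx⟩ => h x hx.1

theorem Ok.ptr_some (h : Q.Ok) {d x : D} (hx : Q.FstAt d x) : Q.ptr L d =
    some (Fin.ofNat L (Q.pos (Q.rp (Q.τ x))), decide (Q.lt d = Q.lt (Q.rp (Q.τ x)))) := by
  have : ∃ x, Q.FstAt d x := ⟨x, hx⟩
  rw [ptr, dif_pos this, h.fstAt_uniq this.choose_spec hx]

theorem lt_of_ed {d d' : D} (e : Q.ed d' = Q.ed d) :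
    Q.lt d' = Q.lt d ∨ Q.lt d' = linv (Q.lt d) := by
  obtain ⟨b, hb⟩ := Q.ed_he e.symm false
  have := la_of_he hb
  cases b
  · exact Or.inl this.symm
  · exact Or.inr this.symm

theorem Ok.val_pos (h : Q.Ok) (hL : L = Q.K * Q.l) {d : D} (hd : d ∈ Q.Y) :
    (Fin.ofNat L (Q.pos d)).val = Q.pos d :=
  Nat.mod_eq_of_lt (hL ▸ h.pos_lt hd)

theorem Ok.ptr_shift (h : Q.Ok) (hL : L = Q.K * Q.l) {d : D} (hd : d ∈ Q.Y)
    (hG : Q.G2 (Q.src (Q.σ d))) : Q.ptr L (Q.σ d) = (Q.ptr L d).map mv := by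
  have i0 := (hG.1 (d, true) hd rfl).1
  by_cases hf : Q.Free d
  · rw [ptr_none.2 hf, ptr_none.2 (h.free_nb (u := (Q.σ d, false)) i0.1 hG (by simpa [nb]))]
    rfl
  obtain ⟨x, hx⟩ := exists_fstAt hf
  obtain ⟨b, hb⟩ := Q.ed_he hx.1.2.1 true
  have hx' := h.fstAt_nb (u := (d, true)) (u' := (x, b)) hd hG hb hx
  obtain ⟨c1, c2⟩ := hG.2 (x, b) hx.1.1 (vt_of_he hb)
  have hz := c2 hx.1.2.2.1
  have e1 : Q.τ (Q.nb (x, b)).1 = (Q.nb (Q.mir (x, b))).1 := congrArg Prod.fst c1
  obtain ⟨c, k1, k2, k3⟩ := h.rp_nb (u := Q.mir (x, b)) hx.1.2.2.1 hz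
  have r1 := (rp_spec hx.1.2.2.1).1.1
  have l1 : Q.la (Q.rp (Q.τ x), c) = linv (Q.lt d) := by
    have := la_of_he k1
    rw [h.la_mir, la_of_he hb] at this
    exact this
  have l2 : Q.la (Q.nb (Q.rp (Q.τ x), c)) = Q.lt (Q.σ d) := by
    have := la_of_he (h.he_nb (u := Q.mir (x, b)) hx.1.2.2.1 r1 hz k1)
    rw [← c1, h.la_mir, la_of_he (h.he_nb (u := (d, true)) hd hx.1.1 hG.1 hb)] at this
    exact this
  have hp := k2.pos
  have v1 := h.val_pos hL r1
  have v2 := h.val_pos hL k2.1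
  have v3 := h.pos_lt k2.1
  rw [h.ptr_some hx, h.ptr_some (d := Q.σ d) hx', e1, k3]
  change Q.pos (Q.nb (Q.rp (Q.τ x), c)).1 < _ at v3
  change (Fin.ofNat L (Q.pos (Q.nb (Q.rp (Q.τ x), c)).1)).val = Q.pos (Q.nb (Q.rp (Q.τ x), c)).1
    at v2
  change (c = true ∧ Q.pos (Q.nb (Q.rp (Q.τ x), c)).1 = Q.pos (Q.rp (Q.τ x)) + 1) ∨
    (c = false ∧ Q.pos (Q.nb (Q.rp (Q.τ x), c)).1 + 1 = Q.pos (Q.rp (Q.τ x))) at hp
  change some (Fin.ofNat L (Q.pos (Q.nb (Q.rp (Q.τ x), c)).1),
    decide (Q.lt (Q.σ d) = Q.lt (Q.nb (Q.rp (Q.τ x), c)).1)) = _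
  rcases hp with ⟨rfl, hp⟩ | ⟨rfl, hp⟩
  · have o1 : Q.lt d = Q.lt (Q.rp (Q.τ x)) := by
      rw [← linv_linv (Q.lt d), ← l1]
      exact linv_linv _
    have o2 : Q.lt (Q.σ d) = Q.lt (Q.nb (Q.rp (Q.τ x), true)).1 := l2.symm
    rw [decide_eq_true o1, decide_eq_true o2, Option.map_some, mv]
    simp only [if_true]
    rw [dif_pos (by omega)]
    congr 2
    exact Fin.ext (by rw [v2]; simp only; omega)
  · have o1 : Q.lt d ≠ Q.lt (Q.rp (Q.τ x)) := fun k => linv_ne _ (l1.symm.trans k.symm)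
    have o2 : Q.lt (Q.σ d) ≠ Q.lt (Q.nb (Q.rp (Q.τ x), false)).1 :=
      fun k => linv_ne _ (l2.trans k)
    rw [decide_eq_false o1, decide_eq_false o2, Option.map_some, mv]
    simp only [Bool.false_eq_true, if_false]
    congr 2
    exact Fin.ext (by rw [v2]; simp only; omega)

theorem mem_actS {j : ℕ} {d : D} : d ∈ Q.actS j ↔ Q.Rep d ∧ j ≤ Q.mu d := by
  simp only [actS, Finset.mem_filter]
  exact ⟨fun h => h.2, fun h => ⟨h.1.1, h⟩⟩

theorem Ok.act_nb (h : Q.Ok) {j : ℕ} {u : D × Bool} (hu : u.1 ∈ Q.actS j) (hG : Q.G1 (Q.vt u)) :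
    (Q.nb u).1 ∈ Q.actS j := by
  rw [mem_actS] at hu ⊢
  exact ⟨h.rep_nb hu.1 hG, by rw [h.mu_nb hu.1.1 hG]; exact hu.2⟩

theorem Ok.witness [Nonempty D] [Fintype V] (h : Q.Ok) (hL : L = Q.K * Q.l) {C : Type} {B : ℕ}
    (hB : 2 * Q.badH.card + 1 ≤ B) {T : V → S × Bool → Prop} {col : V → C} {cb : C → C}
    (typ : ∀ v a v', Q.E v a v' → T v a ∧ col v' = cb (col v)) (ns : S × Bool → S × Bool → Prop)
    (a0 : S × Bool) (vd : V) {m Dd R θ : ℝ} (j : ℕ)
    (bad : m ^ ((Q.nodes j).card + (Q.innS j).card) * Dd ^ (Q.frS ns j).card ≤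
      θ * m ^ (Q.actS j).card * R ^ (Q.ordS ns j).card) :
    ∃ (st : Fin L → St C L B) (V0 : ℕ) (x : Fin L → S × Bool) (nl : Fin (B + 1) → V)
      (s t : Fin L → V), V0 ≤ B + 1 ∧ Valid linv T col cb ns a0 vd m Dd R θ st V0 x nl s t ∧
      ∀ p, (st p).act = true → Q.E (s p) (x p) (t p) := by
  let A : Fin L → Prop := fun p => ∃ d, d ∈ Q.actS j ∧ Q.pos d = p.val
  let dp : Fin L → D := fun p => Classical.epsilon fun d => d ∈ Q.actS j ∧ Q.pos d = p.val
  have actY : ∀ {d}, d ∈ Q.actS j → d ∈ Q.Y := fun k => (Finset.mem_filter.1 k).1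
  have dp1 : ∀ p, A p → dp p ∈ Q.actS j ∧ Q.pos (dp p) = p.val :=
    fun p hp => Classical.epsilon_spec hp
  have dp2 : ∀ d ∈ Q.actS j, ∀ p : Fin L, Q.pos d = p.val → A p ∧ dp p = d := by
    intro d hd p hp
    have hA : A p := ⟨d, hd, hp⟩
    exact ⟨hA, h.pos_inj (actY (dp1 p hA).1) (actY hd) ((dp1 p hA).2.trans hp.symm)⟩
  have hN : (Q.nodes j).card ≤ B + 1 := by
    refine Finset.card_image_le.trans (le_trans (Finset.card_le_card ?_) (by omega :
      Q.badH.card ≤ B + 1))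
    exact Finset.filter_subset_filter _
      (Finset.product_subset_product_left (Finset.filter_subset _ _))
  let nl : Fin (B + 1) → V := fun i =>
    if k : i.val < (Q.nodes j).card then ((Q.nodes j).equivFin.symm ⟨i, k⟩).1 else vd
  let ni : V → Fin (B + 1) := fun v => if k : v ∈ Q.nodes j then
    ⟨(Q.nodes j).equivFin ⟨v, k⟩, lt_of_lt_of_le (Fin.isLt _) hN⟩ else 0
  have nlni : ∀ v ∈ Q.nodes j, nl (ni v) = v := by
    intro v hv
    simp [nl, ni, hv]
  let stD : D → St C L B := fun d => ⟨true, decide (¬ Q.G2 (Q.src d)),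
    decide (¬ Q.G2 (Q.src (Q.σ d))), col (Q.src d), Q.ptr L d,
    if Q.G2 (Q.src d) then 0 else ni (Q.src d),
    if Q.G2 (Q.src (Q.σ d)) then 0 else ni (Q.src (Q.σ d))⟩
  let st : Fin L → St C L B := fun p =>
    if A p then stD (dp p) else ⟨false, false, false, col vd, none, 0, 0⟩
  let x : Fin L → S × Bool := fun p => if A p then Q.lt (dp p) else a0
  let s : Fin L → V := fun p => if A p then Q.src (dp p) else vd
  let t : Fin L → V := fun p => if A p then Q.src (Q.σ (dp p)) else vd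
  have st1 : ∀ p, A p → st p = stD (dp p) := fun p hp => if_pos hp
  have st0 : ∀ p, ¬ A p → st p = ⟨false, false, false, col vd, none, 0, 0⟩ :=
    fun p hp => if_neg hp
  have x1 : ∀ p, A p → x p = Q.lt (dp p) := fun p hp => if_pos hp
  have s1 : ∀ p, A p → s p = Q.src (dp p) := fun p hp => if_pos hp
  have t1 : ∀ p, A p → t p = Q.src (Q.σ (dp p)) := fun p hp => if_pos hp
  have act : ∀ p, (st p).act = true ↔ A p := by
    intro p
    by_cases hp : A p
    · rw [st1 p hp]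
      exact ⟨fun _ => hp, fun _ => rfl⟩
    · rw [st0 p hp]
      exact ⟨fun k => absurd k (by simp), fun k => absurd k hp⟩
  have act0 : ∀ p, (st p).act = false → ¬ A p := fun p k hp => by
    rw [(act p).2 hp] at k
    exact absurd k (by simp)
  have brk : ∀ p, A p → ((st p).brk = false ↔ Q.G2 (Q.src (dp p))) := by
    intro p hp
    rw [st1 p hp]
    simp [stD]
  have fin : ∀ p, A p → ((st p).fin = false ↔ Q.G2 (Q.src (Q.σ (dp p)))) := by
    intro p hp
    rw [st1 p hp]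
    simp [stD]
  have prv : ∀ p, A p → Q.G2 (Q.src (dp p)) → ∃ p' : Fin L, p'.val + 1 = p.val ∧ A p' ∧
      Q.σ (dp p') = dp p := by
    intro p hp hG
    obtain ⟨a1, a2⟩ := dp1 p hp
    have a3 := h.act_nb (u := (dp p, false)) a1 hG.1
    have a4 := (hG.1 (dp p, false) (actY a1) rfl).1.pos
    have a5 := h.val_pos hL (actY a3)
    obtain ⟨a6, a7⟩ := dp2 _ a3 _ a5.symm
    refine ⟨_, ?_, a6, ?_⟩
    · simp only [Bool.false_eq_true, false_and, true_and, false_or] at a4
      omega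
    · rw [a7]
      simp [nb]
  have nxt : ∀ p, A p → Q.G2 (Q.src (Q.σ (dp p))) → ∃ p' : Fin L, p'.val = p.val + 1 ∧ A p' ∧
      dp p' = Q.σ (dp p) := by
    intro p hp hG
    obtain ⟨a1, a2⟩ := dp1 p hp
    have a3 := h.act_nb (u := (dp p, true)) a1 hG.1
    have a4 := (hG.1 (dp p, true) (actY a1) rfl).1.pos
    have a5 := h.val_pos hL (actY a3)
    obtain ⟨a6, a7⟩ := dp2 _ a3 _ a5.symm
    refine ⟨_, ?_, a6, a7⟩
    simp only [Bool.true_eq_false, false_and, true_and, or_false] at a4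
    omega
  have card : ∀ (P : Fin L → Prop) (F : Finset D) [DecidablePred P], F ⊆ Q.actS j →
      (∀ p, P p ↔ A p ∧ dp p ∈ F) → (Finset.univ.filter P).card = F.card := by
    intro P F _ hF hP
    refine Finset.card_bij (fun p _ => dp p) ?_ ?_ ?_
    · exact fun p hp => ((hP p).1 (Finset.mem_filter.1 hp).2).2
    · intro p hp q hq e
      have a1 := (dp1 p ((hP p).1 (Finset.mem_filter.1 hp).2).1).2
      have a2 := (dp1 q ((hP q).1 (Finset.mem_filter.1 hq).2).1).2
      exact Fin.ext (by rw [← a1, ← a2, e])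
    · intro d hd
      obtain ⟨a1, a2⟩ := dp2 d (hF hd) _ (h.val_pos hL (actY (hF hd))).symm
      exact ⟨_, Finset.mem_filter.2 ⟨Finset.mem_univ _, (hP _).2 ⟨a1, a2.symm ▸ hd⟩⟩, a2⟩
  have inn : ∀ p, ((st p).act = true ∧ (st p).brk = false) ↔ A p ∧ dp p ∈ Q.innS j := by
    intro p
    rw [act, innS, Finset.mem_filter]
    exact ⟨fun k => ⟨k.1, (dp1 p k.1).1, (brk p k.1).1 k.2⟩, fun k => ⟨k.1, (brk p k.1).2 k.2.2⟩⟩
  have hprev : ∀ p, A p → Q.G2 (Q.src (dp p)) → prev a0 x p = Q.lt (Q.σ⁻¹ (dp p)) := by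
    intro p hp hG
    obtain ⟨p', e1, e2, e3⟩ := prv p hp hG
    rw [prev_eq a0 x e1, x1 p' e2, ← e3]
    simp
  have ord : ∀ p, (((st p).act = true ∧ (st p).brk = false) ∧ ns (prev a0 x p) (x p)) ↔
      A p ∧ dp p ∈ Q.ordS ns j := by
    intro p
    rw [inn, ordS, Finset.mem_filter, and_assoc]
    refine and_congr_right fun hp => and_congr_right fun hd => ?_
    rw [hprev p hp (Finset.mem_filter.1 hd).2, x1 p hp]
  have s_inn : Q.innS j ⊆ Q.actS j := Finset.filter_subset _ _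
  have s_ord : Q.ordS ns j ⊆ Q.actS j := (Finset.filter_subset _ _).trans s_inn
  have s_fr : Q.frS ns j ⊆ Q.actS j := (Finset.filter_subset _ _).trans s_ord
  have node : ∀ p, A p → ∀ b, ¬ Q.G2 (Q.vt (dp p, b)) → Q.vt (dp p, b) ∈ Q.nodes j :=
    fun p hp b hb => Finset.mem_image_of_mem _ (Finset.mem_filter.2
      ⟨Finset.mem_product.2 ⟨(dp1 p hp).1, Finset.mem_univ _⟩, hb⟩)
  refine ⟨st, (Q.nodes j).card, x, nl, s, t, hN, ⟨?_, ⟨?_, ⟨fun p => Q.rk (dp p), ?_⟩, ?_⟩, ?_, ?_,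
    ?_, ?_, ?_, ?_, ?_, ?_, ?_⟩, ?_⟩
  · refine le_trans (Finset.card_le_card (t := insert 0 ((Q.badH.image fun u =>
      Fin.ofNat L (Q.pos u.1)) ∪ Q.badH.image fun u => Fin.ofNat L (Q.pos u.1 + 1))) ?_) ?_
    · intro p hp
      have hp := (Finset.mem_filter.1 hp).2
      by_contra hn
      simp only [Finset.mem_insert, Finset.mem_union, Finset.mem_image, not_or, not_exists,
        not_and] at hn
      obtain ⟨n0, n1, n2⟩ := hn
      have p0 : p.val ≠ 0 := fun k => n0 (Fin.ext k)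
      have g1 : ∀ b, A p → Q.G2 (Q.vt (dp p, b)) := by
        intro b hA
        by_contra hG
        refine n1 (dp p, b) (Finset.mem_filter.2 ⟨Finset.mem_product.2
          ⟨actY (dp1 p hA).1, Finset.mem_univ _⟩, hG⟩) (Fin.ext ?_)
        rw [h.val_pos hL (actY (dp1 p hA).1), (dp1 p hA).2]
      by_cases hA : A p
      · obtain ⟨p', e1, e2, e3⟩ := prv p hA (g1 false hA)
        refine hp p' e1 ?_
        have k1 : Q.G2 (Q.src (dp p)) := g1 false hA
        have k2 : Q.G2 (Q.src (Q.σ (dp p))) := g1 true hA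
        rw [st1 p hA, st1 p' e2]
        simp only [stD, St.nx, k1, k2, if_true, not_true, decide_false]
        rw [← h.ptr_shift hL (actY (dp1 p' e2).1) (e3 ▸ k1), e3,
          ← (typ _ _ _ (h.dg.edge (dp p'))).2, e3]
      · refine hp ⟨p.val - 1, by omega⟩ (by simp only; omega) ?_
        have hA' : ¬ A ⟨p.val - 1, by omega⟩ := by
          intro hA'
          by_cases hG : Q.G2 (Q.src (Q.σ (dp ⟨p.val - 1, by omega⟩)))
          · obtain ⟨q, e1, e2, -⟩ := nxt _ hA' hG
            obtain rfl : q = p := Fin.ext (by simp only at e1; omega)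
            exact hA e2
          · refine n2 (dp ⟨p.val - 1, by omega⟩, true) (Finset.mem_filter.2 ⟨Finset.mem_product.2
              ⟨actY (dp1 _ hA').1, Finset.mem_univ _⟩, hG⟩) (Fin.ext ?_)
            rw [(dp1 _ hA').2]
            have : p.val - 1 + 1 = p.val := by omega
            simp only [this]
            exact Nat.mod_eq_of_lt p.isLt
        rw [st0 p hA, st0 _ hA']
        rfl
    · refine (Finset.card_insert_le _ _).trans (le_trans (Nat.add_le_add_right
        ((Finset.card_union_le _ _).trans (add_le_add Finset.card_image_le Finset.card_image_le))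
        1) (by omega))
  · exact fun p hp => if_neg (act0 p hp)
  · intro p q o hp hptr
    have hA := (act p).1 hp
    rw [st1 p hA] at hptr
    change Q.ptr L (dp p) = _ at hptr
    obtain ⟨y, hy⟩ := exists_fstAt (d := dp p) fun k => by
      rw [ptr_none.2 k] at hptr
      exact absurd hptr (by simp)
    rw [h.ptr_some hy] at hptr
    simp only [Option.some.injEq, Prod.mk.injEq] at hptr
    obtain ⟨y1, y2, y3, y4⟩ := hy.1
    obtain ⟨r1, r2⟩ := rp_spec y3
    have a1 := dp1 p hA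
    have hact : Q.rp (Q.τ y) ∈ Q.actS j := by
      refine mem_actS.2 ⟨r1, ?_⟩
      rw [Q.mu_congr r2]
      have b1 := (mem_actS.1 a1.1).2
      have b2 := h.mu_le (dp p)
      rw [rk, rk, lex_iff (h.pos_lt (rp_spec (actY a1.1)).1.1) (h.pos_lt r1.1)] at y4
      omega
    obtain ⟨a2, a3⟩ := dp2 _ hact q (by rw [← hptr.1, h.val_pos hL r1.1])
    refine ⟨by beta_reduce; rw [a3, h.rk_congr r1.1 y3 r2]; exact y4, ?_⟩
    rw [x1 p hA, x1 q a2, a3, ← hptr.2]
    by_cases c : Q.lt (dp p) = Q.lt (Q.rp (Q.τ y))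
    · rw [decide_eq_true c, if_pos rfl, c]
    · rw [decide_eq_false c, if_neg (by simp)]
      rcases lt_of_ed r2 with k | k <;> rcases lt_of_ed y2 with k' | k' <;>
        rw [h.dg.ltτ, k'] at k
      · rw [k, linv_linv]
      · exact absurd (by rw [k, linv_linv]) c
      · exact absurd (by rw [k, linv_linv]) c
      · rw [k, linv_linv, linv_linv]
  · intro p hp hb
    have hA := (act p).1 hp
    have hG := (brk p hA).1 hb
    obtain ⟨p', e1, e2, e3⟩ := prv p hA hG
    refine ⟨p', e1, (act _).2 e2, ?_, ?_⟩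
    · rw [st1 p hA, st1 p' e2]
      intro k
      refine ptr_none.2 (h.free_nb (u := (dp p', true)) (actY (dp1 p' e2).1)
        (by rw [← e3] at hG; exact hG) ?_)
      have := ptr_none.1 k
      rwa [← e3] at this
    · rw [x1 p hA, x1 p' e2, ← e3]
      exact h.dg.nb _
  · exact fun i hi => dif_neg (by omega)
  · exact fun p hp => ⟨if_neg (act0 p hp), if_neg (act0 p hp)⟩
  · intro p hp hb
    have hA := (act p).1 hp
    have hG := (brk p hA).1 hb
    rw [hprev p hA hG, s1 p hA, x1 p hA, st1 p hA]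
    refine ⟨rfl, ?_, (typ _ _ _ (h.dg.edge _)).1⟩
    have := (typ _ _ _ (h.symm _ _ _ (h.dg.edge (Q.σ⁻¹ (dp p))))).1
    simpa using this
  · intro p hp hb
    have hA := (act p).1 hp
    have hG : ¬ Q.G2 (Q.src (dp p)) := fun k => by
      rw [(brk p hA).2 k] at hb
      exact absurd hb (by simp)
    rw [s1 p hA, st1 p hA]
    simp only [stD, if_neg hG]
    exact (nlni _ (node p hA false hG)).symm
  · intro p hp hb
    have hA := (act p).1 hp
    have hG : ¬ Q.G2 (Q.src (Q.σ (dp p))) := fun k => by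
      rw [(fin p hA).2 k] at hb
      exact absurd hb (by simp)
    rw [t1 p hA, st1 p hA]
    simp only [stD, if_neg hG]
    exact (nlni _ (node p hA true hG)).symm
  · intro p hp hb
    have hA := (act p).1 hp
    obtain ⟨p', e1, e2, e3⟩ := nxt p hA ((fin p hA).1 hb)
    exact ⟨p', e1, by rw [t1 p hA, s1 p' e2, e3]⟩
  · intro p q hp hq e1 e2
    have hA := (act p).1 hp
    have hA' := (act q).1 hq
    rw [s1 p hA, s1 q hA'] at e1
    rw [x1 p hA, x1 q hA'] at e2
    have := h.rep_uniq (mem_actS.1 (dp1 p hA).1).1 (mem_actS.1 (dp1 q hA').1).1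
      (h.ed_of_he (u := (dp p, false)) (u' := (dp q, false)) (Prod.ext e1 e2))
    exact Fin.ext (by rw [← (dp1 p hA).2, ← (dp1 q hA').2, this])
  · intro p q hp hq e1 e2
    have hA := (act p).1 hp
    have hA' := (act q).1 hq
    rw [s1 p hA, t1 q hA'] at e1
    rw [x1 p hA, x1 q hA'] at e2
    have := h.rep_uniq (mem_actS.1 (dp1 p hA).1).1 (mem_actS.1 (dp1 q hA').1).1
      (h.ed_of_he (u := (dp p, false)) (u' := (dp q, true)) (Prod.ext e1 e2))
    rw [this] at e2
    exact linv_ne _ e2.symm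
  · rw [nfree, nord, card _ _ s_inn inn, card _ _ s_ord ord,
      card _ _ s_fr (fun p => by
        rw [← and_assoc, ord, frS, Finset.mem_filter, and_assoc]
        refine and_congr_right fun hp => and_congr_right fun _ => ?_
        rw [st1 p hp]
        exact ptr_none),
      card _ (Q.actS j) le_rfl (fun p => by
        rw [act]
        exact ⟨fun k => ⟨k, (dp1 p k).1⟩, fun k => k.1⟩)]
    exact bad
  · intro p hp
    have hA := (act p).1 hp
    rw [s1 p hA, x1 p hA, t1 p hA]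
    exact h.dg.edge _

end Dat

end Vale.Agent.P201
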